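import Vale.Agent.P014T.Ig.Cri

/-! # P014, isogeny theorem: the auxiliary function on one disc -/

set_option autoImplicit false
set_option linter.all false

open Filter Topology PowerSeries Metric

noncomputable section

namespace Vale.Agent.P014T.Ig

open Vale.Agent.P022K.Sh.Un Cri

namespace Cri

theorem itd (f : ℂ → ℂ) (n : ℕ) : iteratedDeriv n f 0 = n.factorial * coeff n (tay 0 f) := by
  have : (n.factorial : ℂ) ≠ 0 := by exact_mod_cast n.factorial_ne_zero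
  rw [tay, coeff_mk, mul_inv_cancel_left₀ this]

theorem low_zero {f g : ℂ → ℂ} {n k : ℕ} (hg : AnalyticAt ℂ g 0)
    (e : ∀ᶠ z in 𝓝 0, f z = z ^ n * g z) (hk : k < n) : coeff k (tay 0 f) = 0 := by
  have : tay 0 f = tay 0 (id ^ n * g) := tay_congr e
  rw [this, tay_mul (analyticAt_id.pow n) hg, tay_pow analyticAt_id, tay_id, coeff_X_pow_mul',
    if_neg hk.not_ge]

theorem siegel' {T D : ℕ} (hT : 0 < T) (hD : D = T * (T + 1)) (m : ℕ → ℕ → ℕ → ℤ) {Y : ℝ}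
    (hY : 1 ≤ Y) (h : ∀ i < D, ∀ j < D, ∀ k < T * D, |(m i j k : ℝ)| ≤ Y ^ T) :
    ∃ p : Fin D × Fin D → ℤ, p ≠ 0 ∧ (∀ k < T * D, ∑ x, p x * m x.1 x.2 k = 0) ∧
      ∀ x, |(p x : ℝ)| ≤ D ^ 2 * Y := by
  letI : SeminormedAddCommGroup (Matrix (Fin (T * D)) (Fin D × Fin D) ℤ) :=
    Matrix.seminormedAddCommGroup
  let M : Matrix (Fin (T * D)) (Fin D × Fin D) ℤ := fun k x => m x.1 x.2 k
  have D0 : 0 < D := hD ▸ Nat.mul_pos hT T.succ_pos
  have TD : T < D := by rw [hD]; nlinarith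
  obtain ⟨p, h0, h1, h2⟩ := Int.Matrix.exists_ne_zero_int_vec_norm_le M
    (by simp only [Fintype.card_prod, Fintype.card_fin]; nlinarith)
    (by simpa using Nat.mul_pos hT D0)
  refine ⟨p, h0, fun k hk => ?_, fun x => ?_⟩
  · rw [← show (0 : Fin (T * D) → ℤ) ⟨k, hk⟩ = 0 from rfl, ← congrFun h1 ⟨k, hk⟩]
    exact Finset.sum_congr rfl fun x _ => mul_comm _ _
  · have nM : ‖M‖ ≤ Y ^ T := (Matrix.norm_le_iff (by positivity)).2 fun k x => by
      rw [Int.norm_eq_abs]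
      exact h _ x.1.2 _ x.2.2 _ k.2
    have T0 : (0 : ℝ) < T := by exact_mod_cast hT
    have D1 : (1 : ℝ) ≤ D := by exact_mod_cast D0
    have ex : ((Fintype.card (Fin (T * D)) : ℝ) / ((Fintype.card (Fin D × Fin D) : ℝ) -
        (Fintype.card (Fin (T * D)) : ℝ))) = (T : ℝ)⁻¹ := by
      simp only [Fintype.card_prod, Fintype.card_fin]
      have : (D : ℝ) = T * (T + 1) := by exact_mod_cast hD
      push_cast
      rw [show (D : ℝ) * D - T * D = T * D * T by rw [this]; ring]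
      field_simp
    rw [ex] at h2
    rw [← Int.norm_eq_abs, ← Real.pow_rpow_inv_natCast (x := D ^ 2 * Y) (by positivity) hT.ne']
    refine (norm_le_pi_norm p x).trans (h2.trans (Real.rpow_le_rpow (by positivity) ?_
      (by positivity)))
    simp only [Fintype.card_prod, Fintype.card_fin]
    push_cast
    rw [mul_pow, ← sq]
    exact mul_le_mul (le_self_pow₀ (one_le_pow₀ D1) hT.ne') (max_le (one_le_pow₀ hY) nM)
      (by positivity) (by positivity)

theorem numer' {A K C c : ℝ} {T D n : ℕ} (hA : 0 < A) (hC : 0 < C) (hK : 0 < K) (hD : 0 < D)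
    (hn : T * D ≤ n) (h1 : 1 ≤ C ^ n * c)
    (h2 : c ≤ D ^ 2 * (D ^ 2 * A ^ D) * K ^ D / (2 * C) ^ n) : 2 ^ T ≤ 16 * A * K := by
  have e1 : (2 : ℝ) ^ n ≤ D ^ 2 * (D ^ 2 * A ^ D) * K ^ D := by
    have := h1.trans (mul_le_mul_of_nonneg_left h2 (by positivity))
    rw [mul_comm 2 C, mul_pow, ← mul_div_assoc, mul_div_mul_left _ _ (by positivity),
      le_div_iff₀ (by positivity), one_mul] at this
    exact this
  have e4 : (D : ℝ) ≤ 2 ^ D := by exact_mod_cast Nat.lt_two_pow_self.le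
  have e6 : ((2 : ℝ) ^ T) ^ D ≤ (16 * A * K) ^ D := by
    rw [← pow_mul]
    refine ((pow_le_pow_right₀ one_le_two hn).trans e1).trans ?_
    rw [mul_pow, mul_pow, show (16 : ℝ) = 2 ^ 4 by norm_num, ← pow_mul, mul_comm 4 D, pow_mul,
      ← mul_assoc, ← pow_add]
    gcongr
  exact le_of_pow_le_pow_left₀ hD.ne' (by positivity) e6

theorem big (L : ℝ) (hL : 0 < L) : ∃ T : ℕ, 0 < T ∧ 16 * (T * (T * (T + 1)) * L) < 2 ^ T := by
  have := (tendsto_pow_const_div_const_pow_of_one_lt 3 (one_lt_two (α := ℝ))).eventually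
    (gt_mem_nhds (show 0 < 1 / (32 * L) by positivity))
  obtain ⟨T, h, h1⟩ := (this.and (eventually_ge_atTop 1)).exists
  refine ⟨T, h1, ?_⟩
  have T1 : (1 : ℝ) ≤ T := by exact_mod_cast h1
  rw [div_lt_div_iff₀ (by positivity) (by positivity), one_mul] at h
  refine lt_of_le_of_lt ?_ h
  have : (T : ℝ) * T * L * 1 ≤ T * T * L * T := by gcongr
  nlinarith

end Cri

/-- the analytic criterion -/
theorem chu {u v : ℂ → ℂ} (hu : ∀ t, MeromorphicAt u t) (hv : ∀ t, MeromorphicAt v t)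
    (u0 : AnalyticAt ℂ u 0) (v0 : AnalyticAt ℂ v 0)
    (int : ∀ i j k : ℕ, ∃ m : ℤ, iteratedDeriv k (fun z => u z ^ i * v z ^ j) 0 = m)
    {C : ℝ} (hC : 0 < C) (low : ∀ (d : ℕ) (c : Fin d → Fin d → ℤ) (n : ℕ) (P : ℂ → ℂ),
      (∀ z, P z = ∑ i, ∑ j, c i j * u z ^ (i : ℕ) * v z ^ (j : ℕ)) →
      (∀ k < n, iteratedDeriv k P 0 = 0) → iteratedDeriv n P 0 ≠ 0 →
      (n.factorial : ℝ) ≤ C ^ n * ‖iteratedDeriv n P 0‖) :
    ∃ (d : ℕ) (c : Fin (d + 1) → Fin (d + 1) → ℤ), c ≠ 0 ∧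
      ∀ᶠ z in 𝓝 0, ∑ i, ∑ j, c i j * u z ^ (i : ℕ) * v z ^ (j : ℕ) = 0 := by
  choose m hm using int
  obtain ⟨r, r0, r1, hr⟩ : ∃ r : ℝ, 0 < r ∧ r ≤ 1 ∧ ∀ z ∈ closedBall (0 : ℂ) r,
      AnalyticAt ℂ u z ∧ AnalyticAt ℂ v z := by
    obtain ⟨r, r0, hr⟩ := nhds_basis_closedBall.eventually_iff.1
      (u0.eventually_analyticAt.and v0.eventually_analyticAt)
    exact ⟨min r 1, lt_min r0 one_pos, min_le_right _ _, fun z hz =>
      hr (closedBall_subset_closedBall (min_le_left _ _) hz)⟩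
  obtain ⟨M1, m1, hM1⟩ := bdd (f := u) fun z hz => (hr z hz).1
  obtain ⟨M2, m2, hM2⟩ := bdd (f := v) fun z hz => (hr z hz).2
  obtain ⟨A, hA⟩ : ∃ A, A = M1 * M2 / r := ⟨_, rfl⟩
  have mm : 1 ≤ M1 * M2 := one_le_mul_of_one_le_of_one_le m1 m2
  have A1 : 1 ≤ A := hA ▸ (one_le_div r0).2 (r1.trans mm)
  have R0 : 0 < 2 * C := by positivity
  obtain ⟨g, g0, ga, fa⟩ := clear hu u0 (2 * C)
  obtain ⟨g', g0', ga', fa'⟩ := clear hv v0 (2 * C)
  obtain ⟨B1, b1, hB1⟩ := bdd fa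
  obtain ⟨B2, b2, hB2⟩ := bdd (R := 2 * C) fun z _ => ga z
  obtain ⟨B3, b3, hB3⟩ := bdd fa'
  obtain ⟨B4, b4, hB4⟩ := bdd (R := 2 * C) fun z _ => ga' z
  have γ0 : 0 < ‖g 0‖ * ‖g' 0‖ := by positivity
  obtain ⟨K, hK⟩ : ∃ K, K = B1 * B2 * (B3 * B4) / (‖g 0‖ * ‖g' 0‖) := ⟨_, rfl⟩
  have K0 : 0 < K := hK ▸ by positivity
  obtain ⟨T, T0, hT⟩ := big (A * K) (by positivity)
  obtain ⟨d, hd⟩ : ∃ d, d + 1 = T * (T + 1) :=
    Nat.exists_eq_add_one_of_ne_zero (Nat.mul_pos T0 T.succ_pos).ne' |>.imp fun _ h => h.symm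
  obtain ⟨D, hD⟩ : ∃ D, D = d + 1 := ⟨_, rfl⟩
  rw [← hD] at hd
  have D0 : 0 < D := by omega
  have N1 : (1 : ℝ) ≤ (T * D : ℕ) := by exact_mod_cast Nat.mul_pos T0 D0
  have dd : D ≤ T * D := Nat.le_mul_of_pos_left D T0
  obtain ⟨p, p0, p1, p2⟩ := siegel' T0 hd m (Y := ((T * D : ℕ) * A) ^ D)
    (one_le_pow₀ (one_le_mul_of_one_le_of_one_le N1 A1)) fun i hi j hj k hk => by
    have := cauchy (f := fun z => u z ^ i * v z ^ j) (C := M1 ^ i * M2 ^ j) r0
      (fun z hz => ((hr z hz).1.pow i).mul ((hr z hz).2.pow j)) (fun z hz => by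
        rw [norm_mul, norm_pow, norm_pow]
        gcongr
        exacts [hM1 z hz, hM2 z hz]) k
    rw [← Complex.norm_intCast, ← hm, itd, norm_mul, Complex.norm_natCast, ← pow_mul, mul_comm D T,
      mul_pow]
    refine mul_le_mul ?_ (this.trans ?_) (by positivity) (by positivity)
    · exact_mod_cast (Nat.factorial_le hk.le).trans (Nat.factorial_le_pow _)
    · rw [hA, div_pow, mul_pow]
      exact div_le_div₀ (by positivity) (mul_le_mul (pow_le_pow_right₀ m1 (by omega))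
        (pow_le_pow_right₀ m2 (by omega)) (by positivity) (by positivity)) (by positivity)
        (pow_le_pow_of_le_one r0.le r1 hk.le)
  let P : ℂ → ℂ := fun z => ∑ x, (p x : ℂ) * (u z ^ (x.1 : ℕ) * v z ^ (x.2 : ℕ))
  have eq : ∀ z, P z = ∑ i, ∑ j, (p (i, j) : ℂ) * u z ^ (i : ℕ) * v z ^ (j : ℕ) := fun z => by
    simp only [P, Fintype.sum_prod_type, mul_assoc]
  suffices h : ∀ᶠ z in 𝓝 0, P z = 0 by
    subst hD
    exact ⟨d, fun i j => p (i, j), fun e => p0 (funext fun x => congrFun (congrFun e x.1) x.2),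
      h.mono fun z hz => (eq z).symm.trans hz⟩
  by_contra hP
  have Pa : AnalyticAt ℂ P 0 := Finset.analyticAt_fun_sum _ fun x _ =>
    analyticAt_const.mul ((u0.pow _).mul (v0.pow _))
  obtain ⟨n, P1, P1a, P10, eP⟩ := Pa.exists_eventuallyEq_pow_smul_nonzero_iff.2 hP
  simp only [sub_zero, smul_eq_mul] at eP
  have f0 : (n.factorial : ℂ) ≠ 0 := by exact_mod_cast n.factorial_ne_zero
  have c1 : iteratedDeriv n P 0 = n.factorial * P1 0 := by rw [itd, lead P1a eP]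
  have c2 : tay 0 P = ∑ x : Fin D × Fin D, PowerSeries.C (p x : ℂ) *
      tay 0 fun z => u z ^ (x.1 : ℕ) * v z ^ (x.2 : ℕ) := by
    have : P = ∑ x : Fin D × Fin D, (fun _ => (p x : ℂ)) *
        fun z => u z ^ (x.1 : ℕ) * v z ^ (x.2 : ℕ) := by
      funext z
      simp [P]
    have an : ∀ i j : ℕ, AnalyticAt ℂ (fun z => u z ^ i * v z ^ j) 0 := fun i j =>
      (u0.pow i).mul (v0.pow j)
    rw [this, tay_sum _ fun x => analyticAt_const.mul (an _ _)]
    exact Finset.sum_congr rfl fun x _ => by rw [tay_mul analyticAt_const (an _ _), tay_const]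
  have c3 : T * D ≤ n := not_lt.1 fun e => by
    have : iteratedDeriv n P 0 = ((∑ x, p x * m x.1 x.2 n : ℤ) : ℂ) := by
      rw [itd, c2, map_sum, Finset.mul_sum]
      push_cast
      exact Finset.sum_congr rfl fun x _ => by rw [coeff_C_mul, ← hm, itd]; ring
    rw [p1 n e, c1, Int.cast_zero] at this
    exact mul_ne_zero f0 P10 this
  have c4 : 1 ≤ C ^ n * ‖P1 0‖ := by
    have := low D (fun i j => p (i, j)) n P eq (fun k hk => by
      rw [itd, low_zero P1a eP hk, mul_zero]) (c1 ▸ mul_ne_zero f0 P10)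
    rw [c1, norm_mul, Complex.norm_natCast, mul_left_comm] at this
    exact (le_mul_iff_one_le_right (by exact_mod_cast n.factorial_pos)).1 this
  let F : ℂ → ℂ := fun z => ∑ x : Fin D × Fin D, (p x : ℂ) *
    ((g * u) z ^ (x.1 : ℕ) * g z ^ (D - x.1) * ((g' * v) z ^ (x.2 : ℕ) * g' z ^ (D - x.2)))
  have eF : ∀ z, F z = P z * (g z ^ D * g' z ^ D) := fun z => by
    simp only [F, P, Finset.sum_mul, Pi.mul_apply]
    refine Finset.sum_congr rfl fun x _ => ?_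
    rw [← pow_sub_mul_pow (g z) x.1.2.le, ← pow_sub_mul_pow (g' z) x.2.2.le]
    simp only [Nat.add_sub_cancel, mul_pow]
    ring
  have c5 := cauchy (f := F) (C := D ^ 2 * (D ^ 2 * ((T * D : ℕ) * A) ^ D *
      (B1 * B2 * (B3 * B4)) ^ D)) R0 (fun z hz => Finset.analyticAt_fun_sum _ fun x _ =>
      analyticAt_const.mul ((((fa z hz).pow _).mul ((ga z).pow _)).mul
        (((fa' z hz).pow _).mul ((ga' z).pow _)))) (fun z hz => by
      refine (norm_sum_le _ _).trans ((Finset.sum_le_card_nsmul _ _ (D ^ 2 *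
        ((T * D : ℕ) * A) ^ D * (B1 * B2 * (B3 * B4)) ^ D) fun x _ => ?_).trans_eq ?_)
      · have k : ∀ {y : ℂ} {B : ℝ} {i m : ℕ}, 1 ≤ B → ‖y‖ ≤ B → i ≤ m → ‖y ^ i‖ ≤ B ^ m :=
          fun hB hy hi => (norm_pow _ _).trans_le ((pow_le_pow_left₀ (norm_nonneg _) hy _).trans
            (pow_le_pow_right₀ hB hi))
        rw [norm_mul, norm_mul, norm_mul, norm_mul, Complex.norm_intCast, mul_pow (B1 * B2),
          mul_pow B1, mul_pow B3]
        gcongr
        exacts [p2 x, k b1 (hB1 z hz) x.1.2.le, k b2 (hB2 z hz) (Nat.sub_le _ _),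
          k b3 (hB3 z hz) x.2.2.le, k b4 (hB4 z hz) (Nat.sub_le _ _)]
      · simp only [Finset.card_univ, Fintype.card_prod, Fintype.card_fin, nsmul_eq_mul]
        push_cast
        ring) n
  rw [lead (g := fun z => P1 z * (g z ^ D * g' z ^ D))
    (P1a.mul (((ga 0).pow _).mul ((ga' 0).pow _))) (by
      filter_upwards [eP] with z hz
      rw [eF, hz, mul_assoc])] at c5
  refine hT.not_ge ((numer' (A := (T * D : ℕ) * A) (by positivity) hC K0 D0 c3 c4 ?_).trans_eq ?_)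
  · rw [norm_mul, norm_mul, norm_pow, norm_pow, ← mul_pow, ← le_div_iff₀ (by positivity)] at c5
    refine c5.trans_eq ?_
    rw [hK, div_pow]
    ring
  · rw [hd]
    push_cast
    ring

end Vale.Agent.P014T.Ig
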