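import Vale.Agent.P004K.Hg.Un

/-!
# P014T, block ISOG, row HOM: a rational homothety between period lattices is an isogeny over `ℚ`
-/

set_option autoImplicit false

open scoped Classical

noncomputable section

namespace Vale.Agent.P014T.Ig.Hm

open Vale.Agent.P022 P027H P027M.M WeierstrassCurve.Affine P004K
open P004M.TE (Pt ga Cv crv_map)

/-- a number with finitely many conjugates over `ℚ̄` is algebraic -/
theorem io_of_fin {w : ℂ} {S : Set ℂ} (hS : S.Finite)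
    (h : ∀ σ : ℂ ≃+* ℂ, Ex σ 1 → σ w ∈ S) : ∃ a, io a = w := by
  by_contra hw
  have : Algebra.IsAlgebraic ℚ Qb := AlgebraicClosure.isAlgebraic ℚ
  have : Countable Qb := Cardinal.mk_le_aleph0_iff.1
    ((Algebra.IsAlgebraic.cardinalMk_le_max ℚ Qb).trans (max_le Cardinal.mk_le_aleph0 le_rfl))
  have : Countable (Polynomial Qb) := by
    rw [← Cardinal.mk_le_aleph0_iff]
    exact Polynomial.cardinalMk_le_max.trans (max_le Cardinal.mk_le_aleph0 le_rfl)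
  have key : ∀ (k : ℕ) (p : Polynomial Qb),
      Polynomial.eval₂RingHom (io : Qb →+* ℂ) (w + k) p = 0 ↔ p = 0 := fun k p => by
    refine ⟨fun e => by_contra fun hp => ?_, fun e => by rw [e, map_zero]⟩
    obtain ⟨a, ha⟩ := (IsAlgClosed.splits p).mem_range_of_isRoot (i := (io : Qb →+* ℂ)) hp
      (x := w + k) (by rwa [Polynomial.IsRoot, Polynomial.eval_map])
    exact hw ⟨a - k, by rw [map_sub, map_natCast]; exact sub_eq_of_eq_add ha⟩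
  refine Set.infinite_of_injective_forall_mem (f := fun k : ℕ => w + k)
    (fun a b e => Nat.cast_injective (add_left_cancel e)) (fun k => ?_) hS
  obtain ⟨σ, e⟩ := ext_ker (Polynomial Qb) _ _ fun p => (key 0 p).trans (key k p).symm
  have e1 := e Polynomial.X
  simp only [Polynomial.coe_eval₂RingHom, Polynomial.eval₂_X, Nat.cast_zero, add_zero] at e1
  rw [← e1]
  refine h σ fun a => ?_
  have e2 := e (Polynomial.C a)
  simp only [Polynomial.coe_eval₂RingHom, Polynomial.eval₂_C] at e2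
  exact e2

variable {Λ Λ' : Submodule ℤ ℂ} {A B A' B' : ℤ}

theorem fin_tors (h : IsLat Λ) {m : ℕ} (hm : 0 < m) :
    ∃ T : Set ℂ, T.Finite ∧ ∀ t : ℂ, m * t ∈ Λ → ∃ s ∈ T, t - s ∈ Λ := by
  obtain ⟨L, rfl⟩ := h
  have h0 : (m : ℂ) ≠ 0 := Nat.cast_ne_zero.2 hm.ne'
  have h1 : (0 : ℤ) < m := by exact_mod_cast hm
  refine ⟨(fun x : ℤ × ℤ => (x.1 * L.ω₁ + x.2 * L.ω₂) / m) '' (Set.Ico (0 : ℤ) m ×ˢ Set.Ico (0 : ℤ) m),
    ((Set.finite_Ico _ _).prod (Set.finite_Ico _ _)).image _, fun t ht => ?_⟩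
  obtain ⟨a, b, e⟩ := PeriodPair.mem_lattice.1 ht
  refine ⟨_, ⟨(a % m, b % m), ⟨⟨Int.emod_nonneg _ h1.ne', Int.emod_lt_of_pos _ h1⟩,
    Int.emod_nonneg _ h1.ne', Int.emod_lt_of_pos _ h1⟩, rfl⟩,
    PeriodPair.mem_lattice.2 ⟨a / m, b / m, ?_⟩⟩
  have ea : (a : ℂ) = m * (a / m : ℤ) + (a % m : ℤ) := by
    exact_mod_cast (Int.mul_ediv_add_emod a m).symm
  have eb : (b : ℂ) = m * (b / m : ℤ) + (b % m : ℤ) := by
    exact_mod_cast (Int.mul_ediv_add_emod b m).symm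
  field_simp
  linear_combination e - L.ω₁ * ea - L.ω₂ * eb

theorem ex_tr (h : IsLat Λ) (h2 : g2 Λ = -4 * A) (h3 : g3 Λ = -4 * B) (σ : ℂ ≃+* ℂ) :
    ∃ ψ, Tr (σ : ℂ →+* ℂ) Λ Λ ψ := by
  obtain ⟨M, ψ, t⟩ := h.exists_tr σ
  obtain rfl := t.lat'.ext_g h (by rw [t.g23.1, h2]; simp [map_ofNat])
    (by rw [t.g23.2, h3]; simp [map_ofNat])
  exact ⟨ψ, t⟩

theorem ex_un (h : IsLat Λ) (h2 : g2 Λ = -4 * A) (h3 : g3 Λ = -4 * B) {m : ℕ} (hm : 0 < m) {z : ℂ}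
    (hz : ∀ (σ : ℂ ≃+* ℂ) ψ, Ex σ 1 → Tr (σ : ℂ →+* ℂ) Λ Λ ψ → m * (ψ z - z) ∈ Λ) :
    ∃ y : Pt A B, Un Λ z y := by
  by_cases a : z ∈ Λ
  · exact ⟨0, fun _ => rfl, fun b => absurd a b⟩
  obtain ⟨T, hT, k⟩ := fin_tors h hm
  have key : ∀ σ : ℂ ≃+* ℂ, Ex σ 1 → ∃ s ∈ T, σ (wp Λ z) = wp Λ (z + s) ∧
      σ (dwp Λ z / 2) = dwp Λ (z + s) / 2 := fun σ e => by
    obtain ⟨ψ, t⟩ := ex_tr h h2 h3 σ
    obtain ⟨s, hs, b⟩ := k _ (hz σ ψ e t)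
    have b' : ψ z - (z + s) ∈ Λ := mem_of_eq b (by ring)
    refine ⟨s, hs, (t.wp z).symm.trans (h.wp_congr b'), ?_⟩
    rw [map_div₀, map_ofNat, ← h.dwp_congr b', t.dwp]
    rfl
  obtain ⟨x, hx⟩ := io_of_fin (w := wp Λ z) (hT.image fun s => wp Λ (z + s)) fun σ e =>
    let ⟨s, hs, b⟩ := key σ e
    ⟨s, hs, b.1.symm⟩
  obtain ⟨y, hy⟩ := io_of_fin (w := dwp Λ z / 2) (hT.image fun s => dwp Λ (z + s) / 2) fun σ e =>
    let ⟨s, hs, b⟩ := key σ e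
    ⟨s, hs, b.2.symm⟩
  obtain ⟨ex, -, hk, hv⟩ := h.unif
  have hn : (Cv Qb (A : ℚ) (B : ℚ)).Nonsingular x y := by
    have v := hv z
    have n := mt (hk z).1 a
    generalize ex z = P at v n
    rcases P with _ | ⟨x', y', n'⟩
    · exact absurd rfl n
    have e1 : x' = io x := v.1.trans hx.symm
    have e2 : y' = io y := by
      have t : 2 * y' = _ := v.2
      linear_combination t / 2 - hy
    have e3 := crv_map (io : Qb →+* ℂ) (A := algebraMap ℚ Qb (A : ℚ))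
      (B := algebraMap ℚ Qb (B : ℚ)) (A' := -g2 Λ / 4) (B' := -g3 Λ / 4)
      (by rw [h2]; simp) (by rw [h3]; simp)
    refine (map_nonsingular _ (io : Qb →+* ℂ).injective x y).1 ?_
    subst e1 e2
    exact (congrArg (fun W : WeierstrassCurve ℂ => W.toAffine.Nonsingular (io x) (io y)) e3).mpr n'
  exact ⟨.some x y hn, fun b => absurd b a, fun _ => ⟨x, y, hn, rfl, hx, hy⟩⟩

theorem ga1 (y : Pt A B) : ga 1 y = y := by
  rcases y with _ | ⟨x, y, h⟩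
  · exact map_zero _
  · exact P004M.TE.ga_some 1 h

theorem tr_hom {σ : ℂ ≃+* ℂ} {ψ ψ' : ℂ → ℂ} (t : Tr (σ : ℂ →+* ℂ) Λ Λ ψ)
    (t' : Tr (σ : ℂ →+* ℂ) Λ' Λ' ψ') {c : ℚ} (hc : c ≠ 0) (hle : ∀ z ∈ Λ', c * z ∈ Λ) (z : ℂ) :
    ψ (c * z) - c * ψ' z ∈ Λ := by
  have := ((tq_tr t').hom (tq_tr t) (Rat.cast_ne_zero.2 hc) hle).2 z
  rwa [map_ratCast, one_mul, div_one] at this

theorem un_congr (h : IsLat Λ) {z w : ℂ} (e : z - w ∈ Λ) {y : Pt A B} (u : Un Λ z y) :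
    Un Λ w y :=
  ⟨fun a => u.1 (mem_of_eq (add_mem e a) (by ring)), fun a => by
    rw [← h.wp_congr e, ← h.dwp_congr e]
    exact u.2 fun b => a (mem_of_eq (sub_mem b e) (by ring))⟩

theorem un_smul (h : IsLat Λ) (h2 : g2 Λ = -4 * A) (h3 : g3 Λ = -4 * B) {z : ℂ} {y : Pt A B}
    (u : Un Λ z y) (m : ℕ) : Un Λ (m * z) (m • y) := by
  induction m with
  | zero => exact ⟨fun _ => zero_nsmul _, fun a => absurd (by simp) a⟩
  | succ m ih =>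
    rw [Nat.cast_succ, add_mul, one_mul, succ_nsmul]
    exact ((un A B Λ h h2 h3).2.1 _ _ _ _ ih u).1

theorem ex_inv (h : IsLat Λ) (h' : IsLat Λ') {c : ℂ} (hc : c ≠ 0) (hle : ∀ z ∈ Λ', c * z ∈ Λ) :
    ∃ m : ℕ, 0 < m ∧ ∀ z ∈ Λ, m / c * z ∈ Λ' := by
  have k := hom_scl hc Λ'
  obtain ⟨m, hm, e⟩ := fin_index (k.isLat h') h fun z hz =>
    mem_of_eq (hle _ (mem_scl.1 hz)) (by field_simp)
  exact ⟨m, hm, fun z hz => mem_of_eq (mem_scl.1 (e z hz)) (by ring)⟩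

end Vale.Agent.P014T.Ig.Hm

namespace Vale.Agent.P014T.Ig

open Vale.Agent.P022 P027H P027M.M P004K Hm
open P004M.TE (Pt ga)

variable {Λ Λ' : Submodule ℤ ℂ} {A B A' B' : ℤ}

/-- `φ` is the isogeny `z ↦ c z` -/
def Iso (c : ℚ) (Λ' Λ : Submodule ℤ ℂ) (φ : Pt A' B' →+ Pt A B) : Prop :=
  ∀ z y, Un Λ' z y → Un Λ (c * z) (φ y)

/-- **HOM** -/
theorem hom (h : IsLat Λ) (h2 : g2 Λ = -4 * A) (h3 : g3 Λ = -4 * B) (h' : IsLat Λ')
    (h2' : g2 Λ' = -4 * A') (h3' : g3 Λ' = -4 * B') {c : ℚ} (hc : c ≠ 0)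
    (hle : ∀ z ∈ Λ', c * z ∈ Λ) : ∃ φ : Pt A' B' →+ Pt A B,
      (∀ z y, Un Λ' z y → Un Λ (c * z) (φ y)) ∧ (∀ g y, φ (ga g y) = ga g (φ y)) ∧
      Function.Surjective φ ∧ Finite φ.ker ∧ ∃ m : ℕ, 0 < m ∧ (∀ z ∈ Λ, m / c * z ∈ Λ') ∧
        ∀ y, φ y = 0 → m • y = 0 := by
  obtain ⟨u1, u2, u3⟩ := un A B Λ h h2 h3
  obtain ⟨u1', u2', u3'⟩ := un A' B' Λ' h' h2' h3'
  have c0 : (c : ℂ) ≠ 0 := Rat.cast_ne_zero.2 hc
  obtain ⟨m, hm, hi⟩ := ex_inv h h' c0 hle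
  have ex : ∀ y : Pt A' B', ∃ x : Pt A B, ∀ z, Un Λ' z y → Un Λ (c * z) x := fun y => by
    obtain ⟨z, u⟩ := u1' y
    obtain ⟨x, hx⟩ := ex_un h h2 h3 one_pos (z := c * z) fun σ ψ e t => by
      obtain ⟨ψ', t'⟩ := ex_tr h' h2' h3' σ
      have a := u3' z y σ 1 ψ' u e t'
      rw [ga1] at a
      exact mem_of_eq (add_mem (tr_hom t t' hc hle z) (hle _ ((u2' _ _ _ _ a u).2.1 rfl)))
        (by push_cast; ring)
    exact ⟨x, fun w uw => un_congr h (mem_of_eq (hle _ ((u2' _ _ _ _ u uw).2.1 rfl)) (by ring)) hx⟩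
  choose f hf using ex
  have add : ∀ y y', f (y + y') = f y + f y' := fun y y' => by
    obtain ⟨z, u⟩ := u1' y
    obtain ⟨z', u'⟩ := u1' y'
    exact (u2 _ _ _ _ (hf _ _ (u2' _ _ _ _ u u').1) (u2 _ _ _ _ (hf _ _ u) (hf _ _ u')).1).2.2
      (mem_of_eq (zero_mem _) (by ring))
  have ker : ∀ z y, Un Λ' z y → f y = 0 → m * z ∈ Λ' := fun z y u e => by
    have a : Un Λ 0 (0 : Pt A B) := ⟨fun _ => rfl, fun a => absurd (zero_mem _) a⟩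
    exact mem_of_eq (hi _ ((u2 _ _ _ _ (hf _ _ u) a).2.1 e)) (by field_simp; ring)
  refine ⟨AddMonoidHom.mk' f add, fun z y u => hf y z u, fun g y => ?_, fun x => ?_, ?_, m, hm, hi,
    fun y e => ?_⟩
  · obtain ⟨z, u⟩ := u1' y
    obtain ⟨σ, e⟩ := ex_ex g
    obtain ⟨ψ, t⟩ := ex_tr h h2 h3 σ
    obtain ⟨ψ', t'⟩ := ex_tr h' h2' h3' σ
    exact ((u2 _ _ _ _ (u3 _ _ σ g ψ (hf _ _ u) e t) (hf _ _ (u3' _ _ σ g ψ' u e t'))).2.2
      (tr_hom t t' hc hle z)).symm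
  · obtain ⟨z, u⟩ := u1 x
    obtain ⟨y, hy⟩ := ex_un h' h2' h3' hm (z := z / c) fun σ ψ' e t' => by
      obtain ⟨ψ, t⟩ := ex_tr h h2 h3 σ
      have a := u3 z x σ 1 ψ u e t
      rw [ga1] at a
      have b := tr_hom t t' hc hle (z / c)
      rw [mul_div_cancel₀ _ c0] at b
      exact mem_of_eq (hi _ (sub_mem ((u2 _ _ _ _ a u).2.1 rfl) b)) (by field_simp; ring)
    exact ⟨y, (u2 _ _ _ _ (hf _ _ hy) u).2.2 (mem_of_eq (zero_mem _) (by field_simp; ring))⟩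
  · obtain ⟨T, hT, k⟩ := fin_tors h' hm
    have : ∀ y : (AddMonoidHom.mk' f add).ker, ∃ s : T, Un Λ' s (y : Pt A' B') := fun y => by
      obtain ⟨z, u⟩ := u1' y
      obtain ⟨s, hs, b⟩ := k z (ker z y u y.2)
      exact ⟨⟨s, hs⟩, un_congr h' b u⟩
    choose s hs using this
    have := hT.to_subtype
    refine Finite.of_injective s fun y y' e => Subtype.ext ((u2' _ _ _ _ (hs y) (hs y')).2.2 ?_)
    rw [e, sub_self]
    exact zero_mem _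
  · obtain ⟨z, u⟩ := u1' y
    exact (un_smul h' h2' h3' u m).1 (ker z y u e)

/-- the composite of two such isogenies is a multiplication -/
theorem iso_comp (h' : IsLat Λ') (h2' : g2 Λ' = -4 * A') (h3' : g3 Λ' = -4 * B') {c d : ℚ} {m : ℕ}
    {φ : Pt A' B' →+ Pt A B} {φ' : Pt A B →+ Pt A' B'} (a : Iso c Λ' Λ φ) (b : Iso d Λ Λ' φ')
    (e : d * c = m) (y : Pt A' B') : φ' (φ y) = m • y := by
  obtain ⟨u1, u2, -⟩ := un A' B' Λ' h' h2' h3'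
  obtain ⟨z, u⟩ := u1 y
  have e' : (d : ℂ) * c = m := by exact_mod_cast e
  exact (u2 _ _ _ _ (b _ _ (a _ _ u)) (un_smul h' h2' h3' u m)).2.2
    (mem_of_eq (zero_mem _) (by rw [← e']; ring))

end Vale.Agent.P014T.Ig
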