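import Vale.Agent.P004M.TE.All
import Vale.Agent.P004H.H924.Cartier

/-!
# P014 T, block ISOG: the size of `n !` against `∏ p ^ (n / p)`, the Hasse invariant
-/

set_option linter.all false

open Finset Nat Polynomial

noncomputable section

namespace Vale.Agent.P014T.Ig

namespace Mr

/-- the terms of the constant -/
def tm (m : ℕ) : ℝ := Real.log m / (m * (m - 1))

theorem tm_nonneg (m : ℕ) : 0 ≤ tm m := by
  rcases m with _ | m
  · simp [tm]
  · exact div_nonneg (Real.log_natCast_nonneg _) (by push_cast; nlinarith [m.cast_nonneg (α := ℝ)])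

theorem tm_sum : Summable tm := by
  refine .of_nonneg_of_le tm_nonneg (fun m => ?_)
    ((Real.summable_nat_rpow.2 (show -(3 / 2 : ℝ) < -1 by norm_num)).mul_left 4)
  rcases Nat.lt_or_ge m 2 with h | h
  · have : tm m = 0 := by interval_cases m <;> simp [tm]
    rw [this]
    positivity
  have h2 : (2 : ℝ) ≤ m := by exact_mod_cast h
  have h0 : (0 : ℝ) < m := by linarith
  have a := Real.log_le_rpow_div h0.le (show (0 : ℝ) < 1 / 2 by norm_num)
  have e : (m : ℝ) ^ (-(3 / 2 : ℝ)) * (m * m) = m ^ (1 / 2 : ℝ) := by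
    rw [← sq, ← Real.rpow_natCast, ← Real.rpow_add h0]
    norm_num
  have p := Real.rpow_pos_of_pos h0 (-(3 / 2 : ℝ))
  rw [tm, div_le_iff₀ (by nlinarith)]
  rw [← e] at a
  nlinarith [mul_nonneg (mul_nonneg p.le h0.le) (sub_nonneg.2 h2)]

theorem val_le {p : ℕ} (hp : p.Prime) (n : ℕ) :
    ((n !).factorization p : ℝ) * Real.log p ≤ (n / p : ℕ) * Real.log p + n * tm p := by
  have := Fact.mk hp
  have e : (n !).factorization p = padicValNat p (n / p)! + n / p := by
    rw [factorization_def _ hp, ← padicValNat_factorial_mul, ← padicValNat_factorial_mul_add _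
      (mod_lt n hp.pos), div_add_mod]
  have h2 : (2 : ℝ) ≤ p := by exact_mod_cast hp.two_le
  have a : ((p : ℝ) - 1) * padicValNat p (n / p)! ≤ n / p := by
    have := (sub_one_mul_padicValNat_factorial (p := p) (n / p)).le.trans (Nat.sub_le _ _)
    refine le_trans ?_ cast_div_le
    rw [← cast_one, ← cast_sub hp.pos]
    exact_mod_cast this
  have l := Real.log_natCast_nonneg p
  rw [e, cast_add, add_mul, add_comm, tm, ← mul_div_assoc, mul_div_right_comm]
  refine add_le_add le_rfl (mul_le_mul_of_nonneg_right ?_ l)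
  rw [← div_div, le_div_iff₀ (by linarith), mul_comm]
  exact a

theorem bad_le (p n : ℕ) : (n / p : ℕ) * Real.log p ≤ n := by
  rcases p.eq_zero_or_pos with rfl | h
  · simp
  have h0 : (0 : ℝ) < p := by exact_mod_cast h
  have := mul_le_mul (cast_div_le (α := ℝ) (m := n) (n := p)) ((Real.log_le_self h0.le))
    (Real.log_natCast_nonneg p) (by positivity)
  rwa [div_mul_cancel₀ _ h0.ne'] at this

end Mr

open Mr in
/-- **(a)** -/
theorem mer {S : Set ℕ} (hS : S.Finite) : ∃ C : ℝ, 0 < C ∧ ∀ (n : ℕ) (x : ℤ), x ≠ 0 →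
    (∀ p : ℕ, p.Prime → p ∉ S → (p : ℤ) ^ (n / p) ∣ x) → (n ! : ℝ) ≤ C ^ n * |(x : ℝ)| := by
  classical
  refine ⟨Real.exp (hS.toFinset.card + ∑' m, tm m), Real.exp_pos _, fun n x x0 h => ?_⟩
  set T := (n !).primeFactors
  have pr : ∀ p ∈ T, p.Prime := fun p => prime_of_mem_primeFactors
  have d : ∏ p ∈ T with p ∉ S, (p : ℤ) ^ (n / p) ∣ x := prod_dvd_of_coprime
    (fun p hp q hq e => (isCoprime_iff_coprime.2 ((coprime_primes (pr p (mem_filter.1 hp).1)
      (pr q (mem_filter.1 hq).1)).2 e)).pow) fun p hp =>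
        h p (pr p (mem_filter.1 hp).1) (mem_filter.1 hp).2
  have x1 : (0 : ℝ) < |(x : ℝ)| := abs_pos.2 (Int.cast_ne_zero.2 x0)
  have d1 : ∑ p ∈ T with p ∉ S, ((n / p : ℕ) : ℝ) * Real.log p ≤ Real.log |(x : ℝ)| := by
    have p0 : ∀ p ∈ T.filter (· ∉ S), (0 : ℝ) < (p : ℝ) ^ (n / p) := fun p hp =>
      pow_pos (cast_pos.2 (pr p (mem_filter.1 hp).1).pos) _
    simp only [← Real.log_pow]
    rw [← Real.log_prod fun p hp => (p0 p hp).ne']
    refine Real.log_le_log (prod_pos p0) ?_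
    exact_mod_cast Int.le_of_dvd (abs_pos.2 x0) ((dvd_abs _ _).2 d)
  have d2 : ∑ p ∈ T with p ∈ S, ((n / p : ℕ) : ℝ) * Real.log p ≤ n * hS.toFinset.card := by
    refine (sum_le_card_nsmul _ _ _ fun p _ => bad_le p n).trans ?_
    rw [nsmul_eq_mul, mul_comm]
    exact mul_le_mul_of_nonneg_left (cast_le.2 (card_le_card fun p hp =>
      hS.mem_toFinset.2 (mem_filter.1 hp).2)) (cast_nonneg _)
  have d3 : ∑ p ∈ T, n * tm p ≤ n * ∑' m, tm m := by
    rw [← mul_sum]
    exact mul_le_mul_of_nonneg_left (tm_sum.sum_le_tsum T fun m _ => tm_nonneg m) (cast_nonneg _)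
  have d4 : Real.log n ! ≤ ∑ p ∈ T, (((n / p : ℕ) : ℝ) * Real.log p + n * tm p) := by
    rw [Real.log_nat_eq_sum_factorization]
    exact sum_le_sum fun p hp => val_le (pr p hp) n
  rw [sum_add_distrib, ← sum_filter_add_sum_filter_not T (· ∈ S)] at d4
  rw [← Real.exp_log x1, ← Real.exp_nat_mul, ← Real.exp_add, ← Real.log_le_iff_le_exp
    (cast_pos.2 n.factorial_pos)]
  linarith

/-- **(b)** the Hasse invariant in the prime field -/
theorem al_has {A B : ℤ} {p : ℕ} [hp : Fact p.Prime] (hg : ¬(p : ℤ) ∣ 2 * (4 * A ^ 3 + 27 * B ^ 2)) :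
    (P004M.TE.al A B p : ZMod p) =
      ((X ^ 3 + C (A : ZMod p) * X + C (B : ZMod p)) ^ ((p - 1) / 2)).coeff (p - 1) := by
  rw [P004M.TE.al_eq hg, P004H.H924.coeff_eq_charSum p (fun e => hg (by
    rw [e]; exact dvd_mul_right _ _)) _ (by compute_degree)]
  rw [P004M.TE.cs, Int.cast_neg, Int.cast_sum]
  refine congrArg _ (sum_congr rfl fun x _ => ?_)
  have k : ∀ (i j : DecidableEq (ZMod p)) (y : ZMod p), @quadraticChar (ZMod p) _ _ i y =
      @quadraticChar (ZMod p) _ _ j y := fun i j y => by rw [Subsingleton.elim i j]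
  rw [eval_add, eval_add, eval_pow, eval_mul, eval_X, eval_C, eval_C]
  exact congrArg _ (k _ _ _)

/-- the same in any ring of characteristic `p` -/
theorem al_has' {A B : ℤ} {p : ℕ} (hp : p.Prime) (hg : ¬(p : ℤ) ∣ 2 * (4 * A ^ 3 + 27 * B ^ 2))
    (R : Type*) [CommRing R] [CharP R p] : (P004M.TE.al A B p : R) =
      ((X ^ 3 + C (A : R) * X + C (B : R)) ^ ((p - 1) / 2)).coeff (p - 1) := by
  have := Fact.mk hp
  have e := congrArg (ZMod.castHom (dvd_refl p) R) (al_has hg)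
  rw [map_intCast, ← coeff_map] at e
  simpa using e

/-- the same over the integers -/
theorem al_has_int {A B : ℤ} {p : ℕ} (hp : p.Prime) (hg : ¬(p : ℤ) ∣ 2 * (4 * A ^ 3 + 27 * B ^ 2)) :
    (p : ℤ) ∣ P004M.TE.al A B p - ((X ^ 3 + C A * X + C B) ^ ((p - 1) / 2)).coeff (p - 1) := by
  have := Fact.mk hp
  rw [← ZMod.intCast_zmod_eq_zero_iff_dvd, Int.cast_sub, al_has hg, sub_eq_zero,
    ← eq_intCast (Int.castRingHom (ZMod p)) (coeff _ _), ← coeff_map]
  simp

end Vale.Agent.P014T.Ig
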