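import Vale.Agent.P014T.Ig.Pc1
import Vale.Agent.P014T.Ig.Mer

/-!
# P014 T, block ISOG: the lower bound for the first derivative which does not vanish
-/

set_option linter.all false

open Polynomial
open scoped Nat

noncomputable section

namespace Vale.Agent.P014T.Ig.Pc

open P004M.TE (al)

theorem ph_co {R : Type} [CommRing R] [Nontrivial R] (a b : R) (m : ℕ) :
    (ph a b ^ m).coeff (2 * m) = ((X ^ 3 + C a * X + C b) ^ m).coeff (2 * m) := by
  have d : (X ^ 3 + C a * X + C b : R[X]).natDegree ≤ 4 := by compute_degree; omega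
  have e : reflect 4 (X ^ 3 + C a * X + C b : R[X]) = ph a b := by
    rw [reflect_add, reflect_add, reflect_monomial, reflect_C, ← pow_one (X : R[X]),
      ← pow_mul, reflect_C_mul_X_pow, revAt_le (by omega), revAt_le (by omega)]
    simp [ph]
  have k : ∀ n, reflect (4 * n) ((X ^ 3 + C a * X + C b : R[X]) ^ n) = ph a b ^ n := fun n => by
    induction n with
    | zero => simp
    | succ n ih =>
      rw [pow_succ _ n, pow_succ _ n, mul_add, mul_one, reflect_mul _ _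
        (natDegree_pow_le.trans ((Nat.mul_le_mul_left n d).trans (mul_comm _ _).le)) d, ih, e]
  rw [← k, coeff_reflect, revAt_le (by omega), show 4 * m - 2 * m = 2 * m by omega]

theorem al_ph {A B : ℤ} {p m : ℕ} [hp : Fact p.Prime] (hm : p = 2 * m + 1)
    (hg : ¬(p : ℤ) ∣ 2 * (4 * A ^ 3 + 27 * B ^ 2)) :
    (al A B p : ZMod p) = (ph (A : ZMod p) B ^ m).coeff (2 * m) := by
  rw [ph_co, al_has hg, show (p - 1) / 2 = m by omega, show p - 1 = 2 * m by omega]

/-- **the lower bound** -/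
theorem low {A B A' B' : ℤ} (hD : 4 * A ^ 3 + 27 * B ^ 2 ≠ 0) (hD' : 4 * A' ^ 3 + 27 * B' ^ 2 ≠ 0)
    (hf : {p : ℕ | p.Prime ∧ al A B p ≠ al A' B' p}.Finite) : ∃ C : ℝ, 0 < C ∧ ∀ P (n : ℕ),
      (∀ k < n, cf A B A' B' P k = 0) → cf A B A' B' P n ≠ 0 →
      (n ! : ℝ) ≤ C ^ n * |(cf A B A' B' P n : ℝ)| := by
  have fin : ∀ d : ℤ, d ≠ 0 → {p : ℕ | (p : ℤ) ∣ 2 * d}.Finite := fun d d0 =>
    (Set.finite_le_nat (2 * d).natAbs).subset fun p h =>
      Nat.le_of_dvd (Int.natAbs_pos.2 (mul_ne_zero two_ne_zero d0)) (Int.natCast_dvd.1 h)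
  obtain ⟨C, C0, h⟩ := mer ((hf.union (fin _ hD)).union (fin _ hD'))
  refine ⟨C, C0, fun P n hz h0 => h n _ h0 fun p hp hS => ?_⟩
  simp only [Set.mem_union, Set.mem_setOf_eq, not_or, not_and, not_not] at hS
  have := Fact.mk hp
  obtain ⟨m, hm⟩ := hp.odd_of_ne_two fun e => hS.2 (by rw [e]; exact dvd_mul_right _ _)
  exact dvd_cf hm (al_ph hm hS.1.2) (hS.1.1 hp ▸ al_ph hm hS.2) P n hz

end Vale.Agent.P014T.Ig.Pc
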