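import Vale.Agent.P014T.Ig.Brg
import Vale.Agent.P014T.Ig.Chu
import Vale.Agent.P014T.Ig.Pc
import Vale.Agent.P014T.Ig.Hom

/-!
# P014 (ISOG): the isogeny theorem for elliptic curves over the rationals
-/

open Filter Topology MvPolynomial
open scoped Classical

namespace Vale.Agent.P014T.Ig

open P027H P004K
open P004M.TE (al Pt ga)

variable {Λ Λ' : Submodule ℤ ℂ} {A B A' B' : ℤ}

theorem disc_of (h : IsLat Λ) (h2 : g2 Λ = -4 * A) (h3 : g3 Λ = -4 * B) :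
    4 * A ^ 3 + 27 * B ^ 2 ≠ 0 := by
  intro e
  have e' : (4 * A ^ 3 + 27 * B ^ 2 : ℂ) = 0 := by exact_mod_cast e
  apply h.disc_ne
  rw [h2, h3]
  linear_combination e'

/-- the period lattices of two curves with almost the same coefficients are commensurable -/
theorem isog (h : IsLat Λ) (h2 : g2 Λ = -4 * A) (h3 : g3 Λ = -4 * B) (h' : IsLat Λ')
    (h2' : g2 Λ' = -4 * A') (h3' : g3 Λ' = -4 * B')
    (hf : {p : ℕ | p.Prime ∧ al A B p ≠ al A' B' p}.Finite) :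
    ∃ n : ℕ, 0 < n ∧ ∀ z ∈ Λ', (n : ℂ) * z ∈ Λ := by
  obtain ⟨C, C0, hC⟩ := Pc.low (disc_of h h2 h3) (disc_of h' h2' h3') hf
  have br := bridge h h2 h3 h' h2' h3'
  obtain ⟨d, c, c0, hc⟩ := chu (uz_mer h) (uz_mer h') (uz_an h) (uz_an h')
    (fun i j k => ⟨_, (congrArg (fun f => iteratedDeriv k f 0) (funext fun z => by simp)).trans
      (br (X 0 ^ i * X 2 ^ j) k)⟩) C0 fun d c n P hP hz h0 => by
      have e : ∀ k, iteratedDeriv k P 0 = Pc.cf A B A' B'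
          (∑ i, ∑ j, MvPolynomial.C (c i j) * X 0 ^ (i : ℕ) * X 2 ^ (j : ℕ)) k := fun k => by
        rw [← br]
        refine congrArg (fun f => iteratedDeriv k f 0) (funext fun z => ?_)
        rw [hP]
        simp
      simp only [e] at hz h0 ⊢
      rw [Complex.norm_intCast]
      exact hC _ n (fun k hk => by exact_mod_cast hz k hk) (by exact_mod_cast h0)
  refine per h h' (fun i j => (c i j : ℂ)) (fun e => c0 ?_) (hc.filter_mono nhdsWithin_le_nhds)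
  funext i j
  exact Int.cast_eq_zero.1 (congrFun (congrFun e i) j)

/-- **the isogeny theorem** -/
theorem isog_hom (h : IsLat Λ) (h2 : g2 Λ = -4 * A) (h3 : g3 Λ = -4 * B) (h' : IsLat Λ')
    (h2' : g2 Λ' = -4 * A') (h3' : g3 Λ' = -4 * B')
    (hf : {p : ℕ | p.Prime ∧ al A B p ≠ al A' B' p}.Finite) :
    ∃ (n : ℕ) (φ : Pt A' B' →+ Pt A B), 0 < n ∧ (∀ z ∈ Λ', (n : ℂ) * z ∈ Λ) ∧
      (∀ z y, Un Λ' z y → Un Λ (n * z) (φ y)) ∧ (∀ g y, φ (ga g y) = ga g (φ y)) ∧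
      Function.Surjective φ ∧ Finite φ.ker ∧ ∃ m : ℕ, 0 < m ∧ ∀ y, φ y = 0 → m • y = 0 := by
  obtain ⟨n, n0, hn⟩ := isog h h2 h3 h' h2' h3' hf
  obtain ⟨φ, a1, a2, a3, a4, m, m0, -, a5⟩ := hom h h2 h3 h' h2' h3' (c := n)
    (by exact_mod_cast n0.ne') (by simpa using hn)
  exact ⟨n, φ, n0, hn, by simpa using a1, a2, a3, a4, m, m0, a5⟩

/-- the same without lattices -/
theorem isog_pt (hD : 4 * A ^ 3 + 27 * B ^ 2 ≠ 0) (hD' : 4 * A' ^ 3 + 27 * B' ^ 2 ≠ 0)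
    (hf : {p : ℕ | p.Prime ∧ al A B p ≠ al A' B' p}.Finite) :
    ∃ φ : Pt A' B' →+ Pt A B, (∀ g y, φ (ga g y) = ga g (φ y)) ∧
      Function.Surjective φ ∧ Finite φ.ker := by
  obtain ⟨Λ, h, h2, h3, -⟩ := exists_unif A B (by exact_mod_cast hD)
  obtain ⟨Λ', h', h2', h3', -⟩ := exists_unif A' B' (by exact_mod_cast hD')
  obtain ⟨_, φ, -, -, -, a2, a3, a4, -⟩ := isog_hom h h2 h3 h' h2' h3' hf
  exact ⟨φ, a2, a3, a4⟩

end Vale.Agent.P014T.Ig
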