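import Vale.Agent.P014T.Ig.All
import Vale.Agent.P004M.TE.Tate

/-!
# P014 (ISOG): the matrix of an isogeny on the Tate modules
-/

set_option linter.all false

open Matrix
open scoped Classical

namespace Vale.Agent.P014T.Ig

open P004M.TE (al Pt ga bs)
open P027M.K (TM)

theorem tm_inj {X Y : Type} [AddCommGroup X] [AddCommGroup Y] (φ : X →+ Y) [Finite φ.ker]
    {x : TM 2 X} (h : TM.map 2 φ x = 0) : x = 0 := by
  have e : (Nat.card φ.ker : ℤ_[2]) • x = 0 := TM.ext fun r => by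
    rw [Nat.cast_smul_eq_nsmul, map_nsmul, map_zero]
    exact congrArg Subtype.val (card_nsmul_eq_zero' (G := φ.ker)
      (x := ⟨TM.cp r x, (congrArg (TM.cp r) h).trans (map_zero _)⟩))
  exact (smul_eq_zero.1 e).resolve_left (Nat.cast_ne_zero.2 Nat.card_pos.ne')

variable {A B A' B' : ℤ} (hD : 4 * (A : ℚ) ^ 3 + 27 * (B : ℚ) ^ 2 ≠ 0)
  (hD' : 4 * (A' : ℚ) ^ 3 + 27 * (B' : ℚ) ^ 2 ≠ 0)

/-- the matrix of a homomorphism -/
noncomputable def mx (φ : Pt A' B' →+ Pt A B) : Matrix (Fin 2) (Fin 2) ℤ_[2] :=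
  LinearMap.toMatrix (bs hD') (bs hD) (TM.map 2 φ)

theorem mx_vec (φ : Pt A' B' →+ Pt A B) (x : TM 2 (Pt A' B')) :
    mx hD hD' φ *ᵥ (bs hD').repr x = (bs hD).repr (TM.map 2 φ x) :=
  LinearMap.toMatrix_mulVec_repr _ _ _ _

theorem mx_det (φ : Pt A' B' →+ Pt A B) [Finite φ.ker] : (mx hD hD' φ).det ≠ 0 := fun e => by
  obtain ⟨v, v0, hv⟩ := Matrix.exists_mulVec_eq_zero_iff.2 e
  obtain ⟨x, rfl⟩ := (bs hD').equivFun.surjective v
  have := (mx_vec hD hD' φ x).symm.trans hv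
  refine v0 ?_
  rw [tm_inj φ ((bs hD).equivFun.map_eq_zero_iff.1 this), map_zero]

theorem mx_comm {φ : Pt A' B' →+ Pt A B} {g : P022.GQ} (h : ∀ y, φ (ga g y) = ga g (φ y)) :
    P004M.TE.mt hD g * mx hD hD' φ = mx hD hD' φ * P004M.TE.mt hD' g := by
  refine (LinearMap.toMatrix_comp _ _ _ _ _).symm.trans
    (Eq.trans (congrArg _ ?_) (LinearMap.toMatrix_comp _ _ _ _ _))
  exact LinearMap.ext fun x => TM.ext fun r => (h _).symm

/-- **the Tate modules of two curves with almost the same coefficients** -/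
theorem isog_mat (hf : {p : ℕ | p.Prime ∧ al A B p ≠ al A' B' p}.Finite) :
    ∃ M : Matrix (Fin 2) (Fin 2) ℤ_[2], M.det ≠ 0 ∧
      ∀ g, P004M.TE.mt hD g * M = M * P004M.TE.mt hD' g := by
  obtain ⟨φ, a, -, b⟩ := isog_pt (A := A) (B := B) (A' := A') (B' := B') (by exact_mod_cast hD)
    (by exact_mod_cast hD') hf
  exact ⟨_, mx_det hD hD' φ, fun g => mx_comm hD hD' (a g)⟩

end Vale.Agent.P014T.Ig
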