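import Mathlib

/-!
# P014 T, block ISOG: the vector field on the product of two curves (words)
-/

open MvPolynomial

noncomputable section

namespace Vale.Agent.P014T.Ig.Pc

/-- the derivation along the diagonal leaf, over any ring -/
def Vk (k : Type) [CommRing k] (A B A' B' : k) :
    Derivation k (MvPolynomial (Fin 4) k) (MvPolynomial (Fin 4) k) :=
  mkDerivation k ![2 * X 1, 1 + 3 * C A * X 0 ^ 2 + 4 * C B * X 0 ^ 3,
    2 * X 3, 1 + 3 * C A' * X 2 ^ 2 + 4 * C B' * X 2 ^ 3]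

/-- the derivation, as a map of integral polynomials -/
def V (A B A' B' : ℤ) (P : MvPolynomial (Fin 4) ℤ) : MvPolynomial (Fin 4) ℤ := Vk ℤ A B A' B' P

/-- the derivatives at the origin -/
def cf (A B A' B' : ℤ) (P : MvPolynomial (Fin 4) ℤ) (n : ℕ) : ℤ :=
  constantCoeff ((V A B A' B')^[n] P)

section
variable {k : Type} [CommRing k] (A B A' B' : k)

theorem vk0 : Vk k A B A' B' (X 0) = 2 * X 1 := mkDerivation_X ..
theorem vk1 : Vk k A B A' B' (X 1) = 1 + 3 * C A * X 0 ^ 2 + 4 * C B * X 0 ^ 3 := mkDerivation_X ..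
theorem vk2 : Vk k A B A' B' (X 2) = 2 * X 3 := mkDerivation_X ..
theorem vk3 : Vk k A B A' B' (X 3) = 1 + 3 * C A' * X 2 ^ 2 + 4 * C B' * X 2 ^ 3 :=
  mkDerivation_X ..
theorem vkC (a : k) : Vk k A B A' B' (C a) = 0 := derivation_C ..
theorem vk_add (P Q) : Vk k A B A' B' (P + Q) = Vk k A B A' B' P + Vk k A B A' B' Q := map_add ..
theorem vk_mul (P Q) : Vk k A B A' B' (P * Q) = P * Vk k A B A' B' Q + Q * Vk k A B A' B' P :=
  Derivation.leibniz ..

end

end Vale.Agent.P014T.Ig.Pc
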