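import Vale.Agent.P014T.Ig.Per
import Vale.Agent.P014T.Ig.V

/-!
# P014 (ISOG): the bridge between the Weierstrass functions and the integral derivation
-/

open Filter Topology MvPolynomial Metric

namespace Vale.Agent.P014T.Ig

open P027H

/-- killing the poles of a meromorphic function on a compact set -/
theorem frac {f : ℂ → ℂ} (hf : ∀ z, MeromorphicAt f z) (h0 : AnalyticAt ℂ f 0) {K : Set ℂ}
    (hK : IsCompact K) : ∃ b : ℂ → ℂ, b 0 ≠ 0 ∧ (∀ z, AnalyticAt ℂ b z) ∧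
      ∀ z ∈ K, AnalyticAt ℂ (fun w => b w * f w) z := by
  refine hK.induction_on (p := fun K => ∃ b : ℂ → ℂ, b 0 ≠ 0 ∧ (∀ z, AnalyticAt ℂ b z) ∧
      ∀ z ∈ K, AnalyticAt ℂ (fun w => b w * f w) z) ?_ ?_ ?_ ?_
  · exact ⟨fun _ => 1, one_ne_zero, fun _ => analyticAt_const, fun _ h => h.elim⟩
  · rintro s t hst ⟨b, h1, h2, h3⟩
    exact ⟨b, h1, h2, fun z hz => h3 z (hst hz)⟩
  · rintro s t ⟨b, h1, h2, h3⟩ ⟨b', h1', h2', h3'⟩
    refine ⟨fun w => b w * b' w, mul_ne_zero h1 h1', fun z => (h2 z).mul (h2' z), ?_⟩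
    rintro z (hz | hz)
    · refine ((h2' z).mul (h3 z hz)).congr (Eventually.of_forall fun w => ?_)
      simp only [Pi.mul_apply]
      ring
    · refine ((h2 z).mul (h3' z hz)).congr (Eventually.of_forall fun w => ?_)
      simp only [Pi.mul_apply]
      ring
  · intro z _
    by_cases hz : z = 0
    · subst hz
      refine ⟨_, mem_nhdsWithin_of_mem_nhds h0.eventually_analyticAt, fun _ => 1, one_ne_zero,
        fun _ => analyticAt_const, fun w hw => ?_⟩
      exact analyticAt_const.mul hw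
    · obtain ⟨n, hn⟩ := hf z
      refine ⟨_, mem_nhdsWithin_of_mem_nhds hn.eventually_analyticAt, fun w => (w - z) ^ n, ?_,
        fun w => by fun_prop, fun w hw => hw⟩
      exact pow_ne_zero _ (by simpa using hz)

/-- the chain rule for integral polynomials -/
theorem chain {ι : Type} (D : Derivation ℤ (MvPolynomial ι ℤ) (MvPolynomial ι ℤ)) (x : ℂ → ι → ℂ)
    {z : ℂ} (h : ∀ i, HasDerivAt (fun w => x w i) (aeval (x z) (D (X i))) z)
    (P : MvPolynomial ι ℤ) : HasDerivAt (fun w => aeval (x w) P) (aeval (x z) (D P)) z := by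
  induction P using MvPolynomial.induction_on with
  | C a =>
    simp only [aeval_C, derivation_C, map_zero]
    exact hasDerivAt_const _ _
  | add P Q hP hQ =>
    simp only [map_add]
    exact hP.add hQ
  | mul_X P i hP =>
    simp only [map_mul, aeval_X, Derivation.leibniz, smul_eq_mul, map_add]
    exact (hP.mul (h i)).congr_deriv (by ring)

theorem chain_iter {ι : Type} (D : Derivation ℤ (MvPolynomial ι ℤ) (MvPolynomial ι ℤ))
    (x : ℂ → ι → ℂ) {z : ℂ}
    (h : ∀ᶠ y in 𝓝 z, ∀ i, HasDerivAt (fun w => x w i) (aeval (x y) (D (X i))) y) (n : ℕ)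
    (P : MvPolynomial ι ℤ) :
    iteratedDeriv n (fun w => aeval (x w) P) z = aeval (x z) (D^[n] P) := by
  induction n generalizing P with
  | zero => rfl
  | succ n ih =>
    rw [iteratedDeriv_succ', Function.iterate_succ_apply, ← ih]
    refine Filter.EventuallyEq.iteratedDeriv_eq n ?_
    filter_upwards [h] with y hy
    exact (chain D x hy P).deriv

variable {Λ Λ' : Submodule ℤ ℂ}

/-- the inverse of the Weierstrass function -/
noncomputable def uz (Λ : Submodule ℤ ℂ) (z : ℂ) : ℂ := (wp Λ z)⁻¹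

/-- half its derivative -/
noncomputable def vz (Λ : Submodule ℤ ℂ) (z : ℂ) : ℂ := deriv (uz Λ) z / 2

theorem uz_mer (h : IsLat Λ) (z : ℂ) : MeromorphicAt (uz Λ) z := (h.mer_wp z).inv

theorem uz_ev (L : PeriodPair) : uz L.lattice =ᶠ[𝓝 0] fun z => z ^ 2 * (P014G.pa L z)⁻¹ := by
  refine Eventually.of_forall fun z => ?_
  by_cases hz : z = 0
  · subst hz
    simp [uz, IsLat.wp_mem ⟨L, rfl⟩ L.lattice.zero_mem]
  · show (L.weierstrassP z)⁻¹ = z ^ 2 * (P014G.pa L z)⁻¹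
    rw [P014G.pa_eq L hz, mul_inv, mul_inv_cancel_left₀ (pow_ne_zero 2 hz)]

theorem pa_inv (L : PeriodPair) : AnalyticAt ℂ (fun z => (P014G.pa L z)⁻¹) 0 :=
  (P014G.pa_analytic L).inv (by rw [P014G.pa_zero]; exact one_ne_zero)

theorem uz_an (h : IsLat Λ) : AnalyticAt ℂ (uz Λ) 0 := by
  obtain ⟨L, rfl⟩ := h
  exact ((analyticAt_id.pow 2).mul (pa_inv L)).congr (uz_ev L).symm

theorem vz_an (h : IsLat Λ) : AnalyticAt ℂ (vz Λ) 0 :=
  (uz_an h).deriv.div analyticAt_const two_ne_zero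

theorem uz_zero (h : IsLat Λ) : uz Λ 0 = 0 := by simp [uz, h.wp_mem Λ.zero_mem]

theorem vz_zero (h : IsLat Λ) : vz Λ 0 = 0 := by
  obtain ⟨L, rfl⟩ := h
  have := (hasDerivAt_pow 2 (0 : ℂ)).mul (pa_inv L).differentiableAt.hasDerivAt
  rw [vz, (uz_ev L).deriv_eq]
  rw [show deriv (fun z => z ^ 2 * (P014G.pa L z)⁻¹) 0 = _ from this.deriv]
  simp

theorem vz_eq (h : IsLat Λ) {z : ℂ} (hz : z ∉ Λ) (h0 : wp Λ z ≠ 0) :
    vz Λ z = -dwp Λ z / wp Λ z ^ 2 / 2 := by
  rw [vz, show deriv (uz Λ) z = _ from ((h.hasDerivAt_wp hz).inv h0).deriv]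

theorem vz_ode (h : IsLat Λ) {a b : ℂ} (h2 : g2 Λ = -4 * a) (h3 : g3 Λ = -4 * b) :
    ∀ᶠ z in 𝓝 (0 : ℂ), HasDerivAt (uz Λ) (2 * vz Λ z) z ∧
      HasDerivAt (vz Λ) (1 + 3 * a * uz Λ z ^ 2 + 4 * b * uz Λ z ^ 3) z := by
  have a1 := uz_an h
  have e : ∀ᶠ z in 𝓝[≠] (0 : ℂ),
      deriv (vz Λ) z = 1 + 3 * a * uz Λ z ^ 2 + 4 * b * uz Λ z ^ 3 := by
    filter_upwards [h.notMem_zero, wp_ev_ne h] with z hz h0
    have e1 : vz Λ =ᶠ[𝓝 z] fun w => -dwp Λ w / wp Λ w ^ 2 / 2 := by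
      filter_upwards [h.notMem_nhds hz, (h.analyticAt_wp hz).continuousAt.eventually_ne h0]
        with w hw hw0
      exact vz_eq h hw hw0
    have e2 := (((h.hasDerivAt_dwp hz).neg.div ((h.hasDerivAt_wp hz).pow 2)
      (pow_ne_zero 2 h0)).div_const 2).deriv
    rw [e1.deriv_eq, show deriv (fun w => -dwp Λ w / wp Λ w ^ 2 / 2) z = _ from e2]
    have e3 := h.ode hz
    rw [h2, h3] at e3
    simp only [Pi.pow_apply, Pi.neg_apply, uz, h2]
    field_simp
    simp only [Nat.cast_ofNat, Nat.add_one_sub_one, pow_one]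
    linear_combination (4 * wp Λ z) * e3
  have e' := ((vz_an h).deriv.frequently_eq_iff_eventually_eq
    (g := fun z => 1 + 3 * a * uz Λ z ^ 2 + 4 * b * uz Λ z ^ 3) (by fun_prop)).1 e.frequently
  filter_upwards [e', a1.eventually_analyticAt, (vz_an h).eventually_analyticAt] with z e1 e2 e3
  refine ⟨e2.differentiableAt.hasDerivAt.congr_deriv ?_, e1 ▸ e3.differentiableAt.hasDerivAt⟩
  rw [vz]
  ring

/-- derivatives along the diagonal leaf are the integers `cf` -/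
theorem bridge {A B A' B' : ℤ} (h : IsLat Λ) (h2 : g2 Λ = -4 * A) (h3 : g3 Λ = -4 * B)
    (h' : IsLat Λ') (h2' : g2 Λ' = -4 * A') (h3' : g3 Λ' = -4 * B') (P : MvPolynomial (Fin 4) ℤ)
    (n : ℕ) : iteratedDeriv n (fun z => aeval ![uz Λ z, vz Λ z, uz Λ' z, vz Λ' z] P) 0 =
      Pc.cf A B A' B' P n := by
  have := chain_iter (Pc.Vk ℤ A B A' B') (fun z => ![uz Λ z, vz Λ z, uz Λ' z, vz Λ' z]) (z := 0)
    ?_ n P
  · rw [this, uz_zero h, vz_zero h, uz_zero h', vz_zero h']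
    have e : (![0, 0, 0, 0] : Fin 4 → ℂ) = fun _ => 0 := by
      funext i
      fin_cases i <;> rfl
    rw [e, aeval_zero']
    rfl
  · filter_upwards [vz_ode h h2 h3, vz_ode h' h2' h3'] with y e e' i
    fin_cases i
    · simpa [Pc.vk0] using e.1
    · simpa [Pc.vk1] using e.2
    · simpa [Pc.vk2] using e'.1
    · simpa [Pc.vk3] using e'.2

end Vale.Agent.P014T.Ig
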