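import Vale.Agent.P004F.Qx.Hz

/-! # P014, isogeny theorem: two meromorphic functions with integral expansions are dependent -/

set_option autoImplicit false
set_option linter.all false

open Filter Topology PowerSeries Metric

noncomputable section

namespace Vale.Agent.P014T.Ig.Cri

open Vale.Agent.P022K.Sh.Un

theorem cauchy {f : ℂ → ℂ} {R C : ℝ} (hR : 0 < R) (hf : AnalyticOnNhd ℂ f (closedBall 0 R))
    (hC : ∀ z ∈ sphere (0 : ℂ) R, ‖f z‖ ≤ C) (n : ℕ) : ‖coeff n (tay 0 f)‖ ≤ C / R ^ n := by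
  have d : DiffContOnCl ℂ f (ball 0 R) := by
    refine DifferentiableOn.diffContOnCl ?_
    rw [closure_ball _ hR.ne']
    exact hf.differentiableOn
  have := Complex.norm_iteratedDeriv_le_of_forall_mem_sphere_norm_le n hR d hC
  have p : (0 : ℝ) < n.factorial := by exact_mod_cast n.factorial_pos
  rw [tay, coeff_mk, norm_mul, norm_inv, Complex.norm_natCast, inv_mul_le_iff₀ p, ← mul_div_assoc]
  exact this

theorem tay_pow {f : ℂ → ℂ} (hf : AnalyticAt ℂ f 0) (n : ℕ) : tay 0 (f ^ n) = tay 0 f ^ n := by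
  induction n with
  | zero => exact (tay_const (z := 0) 1).trans (by simp)
  | succ n ih => rw [pow_succ, pow_succ, tay_mul (hf.pow n) hf, ih]

theorem tay_id : tay 0 id = X := by
  rw [← tay_tz (z := 0)]
  exact tay_congr (Eventually.of_forall fun w => (sub_zero w).symm)

theorem tay_sum {ι : Type} (s : Finset ι) {f : ι → ℂ → ℂ} (hf : ∀ i, AnalyticAt ℂ (f i) 0) :
    tay 0 (∑ i ∈ s, f i) = ∑ i ∈ s, tay 0 (f i) := by
  induction s using Finset.cons_induction with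
  | empty => exact (tay_const (z := 0) 0).trans (by simp)
  | cons a s ha ih =>
    rw [Finset.sum_cons, Finset.sum_cons, tay_add (hf a) (Finset.analyticAt_sum s fun i _ => hf i),
      ih]

theorem lead {f g : ℂ → ℂ} {n : ℕ} (hg : AnalyticAt ℂ g 0) (e : ∀ᶠ z in 𝓝 0, f z = z ^ n * g z) :
    coeff n (tay 0 f) = g 0 := by
  have : tay 0 f = tay 0 (id ^ n * g) := tay_congr e
  rw [this, tay_mul (analyticAt_id.pow n) hg, tay_pow analyticAt_id, tay_id, ← tay_zero g,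
    ← coeff_zero_eq_constantCoeff_apply]
  simpa using coeff_X_pow_mul (tay 0 g) n 0

/-- clearing the poles in a disc -/
theorem clear {u : ℂ → ℂ} (hu : ∀ t, MeromorphicAt u t) (u0 : AnalyticAt ℂ u 0) (R : ℝ) :
    ∃ g : ℂ → ℂ, g 0 ≠ 0 ∧ (∀ t, AnalyticAt ℂ g t) ∧ AnalyticOnNhd ℂ (g * u) (closedBall 0 R) := by
  classical
  have fin := (isCompact_closedBall (0 : ℂ) R).finite_sdiff_of_mem_codiscreteWithin
    (MeromorphicOn.eventually_codiscreteWithin_analyticAt u (U := closedBall 0 R) fun t _ => hu t)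
  choose n hn using hu
  have an : ∀ (s : Finset ℂ) (t : ℂ), AnalyticAt ℂ (fun z => ∏ a ∈ s, (z - a) ^ n a) t :=
    fun s t => Finset.analyticAt_fun_prod s fun a _ => by fun_prop
  refine ⟨fun z => ∏ a ∈ fin.toFinset, (z - a) ^ n a, ?_, an _, fun t ht => ?_⟩
  · refine Finset.prod_ne_zero_iff.2 fun a ha => pow_ne_zero _ fun e => ?_
    obtain rfl : a = 0 := by simpa using e
    exact (fin.mem_toFinset.1 ha).2 u0
  · by_cases k : t ∈ fin.toFinset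
    · refine ((an (fin.toFinset.erase t) t).mul (hn t)).congr (Eventually.of_forall fun z => ?_)
      simp only [Pi.mul_apply, smul_eq_mul]
      rw [← Finset.prod_erase_mul _ _ k, mul_assoc]
    · exact (an _ t).mul (not_not.1 fun e => k (fin.mem_toFinset.2 ⟨ht, e⟩))

theorem bdd {f : ℂ → ℂ} {R : ℝ} (hf : AnalyticOnNhd ℂ f (closedBall 0 R)) :
    ∃ B : ℝ, 1 ≤ B ∧ ∀ z ∈ sphere (0 : ℂ) R, ‖f z‖ ≤ B := by
  obtain ⟨B, hB⟩ := (isCompact_closedBall (0 : ℂ) R).exists_bound_of_continuousOn hf.continuousOn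
  exact ⟨max 1 B, le_max_left _ _, fun z hz => (hB z (sphere_subset_closedBall hz)).trans
    (le_max_right _ _)⟩

/-- Siegel's lemma for two integral series -/
theorem siegel (a b : ℤ⟦X⟧) {A : ℝ} (hA : 1 ≤ A) {D : ℕ} (hD : 0 < D)
    (h : ∀ i < D, ∀ j < 2 * D, ∀ k < D * D, |((coeff k (a ^ i * b ^ j) : ℤ) : ℝ)| ≤ A) :
    ∃ p : Fin D × Fin (2 * D) → ℤ, p ≠ 0 ∧ (∀ k < D * D,
      coeff k (∑ x, C (p x) * (a ^ (x.1 : ℕ) * b ^ (x.2 : ℕ))) = 0) ∧
      ∀ x, |(p x : ℝ)| ≤ 2 * D ^ 2 * A := by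
  letI : SeminormedAddCommGroup (Matrix (Fin (D * D)) (Fin D × Fin (2 * D)) ℤ) :=
    Matrix.seminormedAddCommGroup
  let M : Matrix (Fin (D * D)) (Fin D × Fin (2 * D)) ℤ :=
    fun k x => coeff k (a ^ (x.1 : ℕ) * b ^ (x.2 : ℕ))
  have p0 : 0 < D * D := Nat.mul_pos hD hD
  obtain ⟨p, h0, h1, h2⟩ := Int.Matrix.exists_ne_zero_int_vec_norm_le M
    (by simp only [Fintype.card_prod, Fintype.card_fin]; nlinarith) (by simpa using p0)
  refine ⟨p, h0, fun k hk => ?_, fun x => ?_⟩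
  · have := congrFun h1 ⟨k, hk⟩
    simp only [map_sum, coeff_C_mul]
    rw [← show (0 : Fin (D * D) → ℤ) ⟨k, hk⟩ = 0 from rfl, ← this]
    exact Finset.sum_congr rfl fun x _ => mul_comm _ _
  · have nM : ‖M‖ ≤ A := (Matrix.norm_le_iff (zero_le_one.trans hA)).2 fun k x => by
      rw [Int.norm_eq_abs]
      exact h _ x.1.2 _ x.2.2 _ k.2
    have D0 : (0 : ℝ) < D := by exact_mod_cast hD
    have ex : ((Fintype.card (Fin (D * D)) : ℝ) / ((Fintype.card (Fin D × Fin (2 * D)) : ℝ) -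
        (Fintype.card (Fin (D * D)) : ℝ))) = 1 := by
      simp only [Fintype.card_prod, Fintype.card_fin]
      push_cast
      rw [div_eq_one_iff_eq (by nlinarith)]
      ring
    rw [ex, Real.rpow_one] at h2
    rw [← Int.norm_eq_abs]
    refine (norm_le_pi_norm p x).trans (h2.trans ?_)
    simp only [Fintype.card_prod, Fintype.card_fin]
    push_cast
    have := max_le hA nM
    nlinarith [mul_pos D0 D0]

theorem numer {A K s c : ℝ} {D n : ℕ} (hA : 1 ≤ A) (hs : 0 < s) (hK : 0 < K) (hD : 0 < D)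
    (hn : D * D ≤ n) (h1 : 1 ≤ s ^ n * c)
    (h2 : c ≤ 2 * D ^ 2 * (2 * D ^ 2 * A ^ (D * D)) * K ^ D / (2 * s * A) ^ n) :
    2 ^ D ≤ 64 * K := by
  have A0 : 0 < A := zero_lt_one.trans_le hA
  have e1 : (2 * A) ^ n ≤ 2 * D ^ 2 * (2 * D ^ 2 * A ^ (D * D)) * K ^ D := by
    have := h1.trans (mul_le_mul_of_nonneg_left h2 (by positivity))
    rw [show 2 * s * A = s * (2 * A) by ring, mul_pow, ← mul_div_assoc,
      mul_div_mul_left _ _ (by positivity), le_div_iff₀ (by positivity), one_mul] at this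
    exact this
  have e2 : (2 * A) ^ (D * D) ≤ (2 * A) ^ n := pow_le_pow_right₀ (by linarith) hn
  have e3 : (2 : ℝ) ^ (D * D) ≤ 4 * D ^ 4 * K ^ D := by
    refine le_of_mul_le_mul_right ?_ (pow_pos A0 (D * D))
    rw [← mul_pow]
    refine (e2.trans e1).trans_eq ?_
    ring
  have e4 : (D : ℝ) ≤ 2 ^ D := by exact_mod_cast Nat.lt_two_pow_self.le
  have e5 : (4 : ℝ) ≤ 4 ^ D := le_self_pow₀ (by norm_num) hD.ne'
  have e6 : ((2 : ℝ) ^ D) ^ D ≤ (64 * K) ^ D := by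
    rw [← pow_mul]
    refine e3.trans ?_
    rw [mul_pow, show (64 : ℝ) = 4 * 2 ^ 4 by norm_num, mul_pow, ← pow_mul, mul_comm 4 D, pow_mul]
    gcongr
  exact le_of_pow_le_pow_left₀ hD.ne' (by positivity) e6

theorem lift {f : ℂ⟦X⟧} (h : ∀ n, ∃ k : ℤ, coeff n f = k) :
    ∃ a : ℤ⟦X⟧, PowerSeries.map (Int.castRingHom ℂ) a = f := by
  choose k hk using h
  exact ⟨PowerSeries.mk k, by ext n; simp [hk]⟩

/-- the criterion -/
theorem crit {u v ψ : ℂ → ℂ} (hu : ∀ t, MeromorphicAt u t) (hv : ∀ t, MeromorphicAt v t)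
    (u0 : AnalyticAt ℂ u 0) (v0 : AnalyticAt ℂ v 0) (hψ : AnalyticAt ℂ ψ 0) (ψ0 : ψ 0 = 0)
    (ψ1 : deriv ψ 0 ≠ 0) (iu : ∀ n, ∃ k : ℤ, coeff n (tay 0 (u ∘ ψ)) = k)
    (iv : ∀ n, ∃ k : ℤ, coeff n (tay 0 (v ∘ ψ)) = k) :
    ∃ (D E : ℕ) (p : Fin D × Fin E → ℤ), p ≠ 0 ∧
      ∀ᶠ z in 𝓝 0, ∑ x, (p x : ℂ) * (u z ^ (x.1 : ℕ) * v z ^ (x.2 : ℕ)) = 0 := by
  obtain ⟨a, ha⟩ := lift iu
  obtain ⟨b, hb⟩ := lift iv
  have ua : AnalyticAt ℂ (u ∘ ψ) 0 := u0.comp_of_eq hψ ψ0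
  have va : AnalyticAt ℂ (v ∘ ψ) 0 := v0.comp_of_eq hψ ψ0
  obtain ⟨r, r0, r1, hr⟩ : ∃ r : ℝ, 0 < r ∧ r ≤ 1 ∧ ∀ z ∈ closedBall (0 : ℂ) r,
      AnalyticAt ℂ (u ∘ ψ) z ∧ AnalyticAt ℂ (v ∘ ψ) z := by
    obtain ⟨r, r0, hr⟩ := nhds_basis_closedBall.eventually_iff.1
      (ua.eventually_analyticAt.and va.eventually_analyticAt)
    exact ⟨min r 1, lt_min r0 one_pos, min_le_right _ _, fun z hz =>
      hr (closedBall_subset_closedBall (min_le_left _ _) hz)⟩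
  obtain ⟨M1, m1, hM1⟩ := bdd (f := u ∘ ψ) fun z hz => (hr z hz).1
  obtain ⟨M2, m2, hM2⟩ := bdd (f := v ∘ ψ) fun z hz => (hr z hz).2
  obtain ⟨A, hA⟩ : ∃ A, A = M1 * M2 ^ 2 / r := ⟨_, rfl⟩
  have mm : 1 ≤ M1 * M2 ^ 2 := one_le_mul_of_one_le_of_one_le m1 (one_le_pow₀ m2)
  have A1 : 1 ≤ A := hA ▸ (one_le_div r0).2 (r1.trans mm)
  have s0 : 0 < ‖deriv ψ 0‖ := norm_pos_iff.2 ψ1
  obtain ⟨R, hR⟩ : ∃ R, R = 2 * ‖deriv ψ 0‖ * A := ⟨_, rfl⟩
  have R0 : 0 < R := hR ▸ by positivity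
  obtain ⟨g, g0, ga, fa⟩ := clear hu u0 R
  obtain ⟨g', g0', ga', fa'⟩ := clear hv v0 R
  obtain ⟨B1, b1, hB1⟩ := bdd fa
  obtain ⟨B2, b2, hB2⟩ := bdd (R := R) fun z _ => ga z
  obtain ⟨B3, b3, hB3⟩ := bdd fa'
  obtain ⟨B4, b4, hB4⟩ := bdd (R := R) fun z _ => ga' z
  have γ0 : 0 < ‖g 0‖ * ‖g' 0‖ ^ 2 := by positivity
  obtain ⟨K, hK⟩ : ∃ K, K = B1 * B2 * (B3 * B4) ^ 2 / (‖g 0‖ * ‖g' 0‖ ^ 2) := ⟨_, rfl⟩
  have K0 : 0 < K := hK ▸ by positivity
  obtain ⟨D, D1, D0⟩ : ∃ D : ℕ, 64 * K < 2 ^ D ∧ 0 < D := by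
    obtain ⟨D, h⟩ := pow_unbounded_of_one_lt (64 * K) (one_lt_two (α := ℝ))
    exact ⟨D + 1, h.trans_le (pow_le_pow_right₀ one_le_two D.le_succ), D.succ_pos⟩
  have mon : ∀ i j : ℕ, PowerSeries.map (Int.castRingHom ℂ) (a ^ i * b ^ j) =
      tay 0 ((u ∘ ψ) ^ i * (v ∘ ψ) ^ j) := fun i j => by
    rw [map_mul, map_pow, map_pow, ha, hb, tay_mul (ua.pow i) (va.pow j), tay_pow ua, tay_pow va]
  obtain ⟨p, p0, p1, p2⟩ := siegel a b (one_le_pow₀ A1 (n := D * D)) D0 fun i hi j hj k hk => by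
    have := cauchy (f := (u ∘ ψ) ^ i * (v ∘ ψ) ^ j) (C := M1 ^ i * M2 ^ j) r0
      (fun z hz => ((hr z hz).1.pow i).mul ((hr z hz).2.pow j)) (fun z hz => by
        rw [Pi.mul_apply, Pi.pow_apply, Pi.pow_apply, norm_mul, norm_pow, norm_pow]
        gcongr
        exacts [hM1 z hz, hM2 z hz]) k
    rw [← mon, coeff_map, eq_intCast, Complex.norm_intCast] at this
    refine this.trans ?_
    have dd : D ≤ D * D := Nat.le_mul_self D
    rw [hA, div_pow, mul_pow, ← pow_mul]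
    refine div_le_div₀ (by positivity) (mul_le_mul (pow_le_pow_right₀ m1 (by omega))
      (pow_le_pow_right₀ m2 (by omega)) (by positivity) (by positivity)) (by positivity)
      (pow_le_pow_of_le_one r0.le r1 hk.le)
  refine ⟨D, 2 * D, p, p0, by_contra fun hP => ?_⟩
  let P : ℂ → ℂ := fun z => ∑ x, (p x : ℂ) * (u z ^ (x.1 : ℕ) * v z ^ (x.2 : ℕ))
  have Pa : AnalyticAt ℂ P 0 := Finset.analyticAt_fun_sum _ fun x _ =>
    analyticAt_const.mul ((u0.pow _).mul (v0.pow _))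
  obtain ⟨n, P1, P1a, P10, eP⟩ := Pa.exists_eventuallyEq_pow_smul_nonzero_iff.2 hP
  simp only [sub_zero, smul_eq_mul] at eP
  have da : AnalyticAt ℂ (dslope ψ 0) 0 := by
    obtain ⟨q, hq⟩ := hψ
    exact ⟨_, hq.has_fpower_series_dslope_fslope⟩
  have c1 : coeff n (tay 0 (P ∘ ψ)) = deriv ψ 0 ^ n * P1 0 := by
    have t : Tendsto ψ (𝓝 0) (𝓝 0) := by simpa [ψ0] using hψ.continuousAt.tendsto
    rw [lead (g := dslope ψ 0 ^ n * P1 ∘ ψ) ((da.pow n).mul (P1a.comp_of_eq hψ ψ0)) ?_]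
    · simp [ψ0]
    · filter_upwards [t.eventually eP] with z hz
      have := sub_smul_dslope ψ 0 z
      rw [sub_zero, ψ0, sub_zero, smul_eq_mul] at this
      rw [Function.comp_apply, hz, Pi.mul_apply, Pi.pow_apply, ← mul_assoc, ← mul_pow, this]
      rfl
  have c2 : tay 0 (P ∘ ψ) = PowerSeries.map (Int.castRingHom ℂ)
      (∑ x, C (p x) * (a ^ (x.1 : ℕ) * b ^ (x.2 : ℕ))) := by
    have : P ∘ ψ = ∑ x : Fin D × Fin (2 * D), (fun _ => (p x : ℂ)) *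
        ((u ∘ ψ) ^ (x.1 : ℕ) * (v ∘ ψ) ^ (x.2 : ℕ)) := by
      funext z
      simp [P]
    rw [this, tay_sum _ fun x => analyticAt_const.mul ((ua.pow _).mul (va.pow _)), map_sum]
    refine Finset.sum_congr rfl fun x _ => ?_
    rw [tay_mul analyticAt_const ((ua.pow _).mul (va.pow _)), tay_const, map_mul, mon, map_C,
      eq_intCast]
  rw [c2, coeff_map, eq_intCast] at c1
  have c3 : coeff n (∑ x, C (p x) * (a ^ (x.1 : ℕ) * b ^ (x.2 : ℕ))) ≠ 0 := fun e => by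
    rw [e, Int.cast_zero] at c1
    exact mul_ne_zero (pow_ne_zero n ψ1) P10 c1.symm
  have c4 : 1 ≤ ‖deriv ψ 0‖ ^ n * ‖P1 0‖ := by
    rw [← norm_pow, ← norm_mul, ← c1, Complex.norm_intCast]
    exact_mod_cast Int.one_le_abs c3
  let F : ℂ → ℂ := fun z => ∑ x : Fin D × Fin (2 * D), (p x : ℂ) *
    ((g * u) z ^ (x.1 : ℕ) * g z ^ (D - x.1) * ((g' * v) z ^ (x.2 : ℕ) * g' z ^ (2 * D - x.2)))
  have eF : ∀ z, F z = P z * (g z ^ D * g' z ^ (2 * D)) := fun z => by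
    simp only [F, P, Finset.sum_mul, Pi.mul_apply]
    refine Finset.sum_congr rfl fun x _ => ?_
    rw [← pow_sub_mul_pow (g z) x.1.2.le, ← pow_sub_mul_pow (g' z) x.2.2.le]
    simp only [Nat.add_sub_cancel, mul_pow]
    ring
  have c5 := cauchy (f := F) (C := 2 * D ^ 2 * (2 * D ^ 2 * A ^ (D * D) *
      (B1 * B2 * (B3 * B4) ^ 2) ^ D)) R0 (fun z hz => Finset.analyticAt_fun_sum _ fun x _ =>
      analyticAt_const.mul ((((fa z hz).pow _).mul ((ga z).pow _)).mul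
        (((fa' z hz).pow _).mul ((ga' z).pow _)))) (fun z hz => by
      refine (norm_sum_le _ _).trans ((Finset.sum_le_card_nsmul _ _ (2 * D ^ 2 * A ^ (D * D) *
        (B1 * B2 * (B3 * B4) ^ 2) ^ D) fun x _ => ?_).trans_eq ?_)
      · have k : ∀ {y : ℂ} {B : ℝ} {i m : ℕ}, 1 ≤ B → ‖y‖ ≤ B → i ≤ m → ‖y ^ i‖ ≤ B ^ m :=
          fun hB hy hi => (norm_pow _ _).trans_le ((pow_le_pow_left₀ (norm_nonneg _) hy _).trans
            (pow_le_pow_right₀ hB hi))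
        rw [norm_mul, norm_mul, norm_mul, norm_mul, Complex.norm_intCast, mul_pow, mul_pow,
          ← pow_mul, mul_pow]
        gcongr
        exacts [p2 x, k b1 (hB1 z hz) x.1.2.le, k b2 (hB2 z hz) (Nat.sub_le _ _),
          k b3 (hB3 z hz) x.2.2.le, k b4 (hB4 z hz) (Nat.sub_le _ _)]
      · simp only [Finset.card_univ, Fintype.card_prod, Fintype.card_fin, nsmul_eq_mul]
        push_cast
        ring) n
  rw [lead (g := fun z => P1 z * (g z ^ D * g' z ^ (2 * D)))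
    (P1a.mul (((ga 0).pow _).mul ((ga' 0).pow _))) (by
      filter_upwards [eP] with z hz
      rw [eF, hz, mul_assoc])] at c5
  refine D1.not_ge (numer A1 s0 K0 D0 (not_lt.1 fun e => c3 (p1 n e)) c4 ?_)
  rw [norm_mul, norm_mul, norm_pow, norm_pow, pow_mul, ← mul_pow, ← le_div_iff₀ (by positivity)]
    at c5
  refine c5.trans_eq ?_
  rw [← hR, hK, div_pow]
  ring

end Vale.Agent.P014T.Ig.Cri
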