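import Mathlib

/-!
# P014 T, block ISOG: the functional equation lemma for the type `p - a F + F ^ 2`
-/

open PowerSeries

set_option linter.all false

noncomputable section

namespace Vale.Agent.P014T.Ig

variable {K : Type*} [Field K]

/-- the coefficients of `f (X ^ q)` -/
def cf (q : ℕ) (f : K⟦X⟧) (n : ℕ) : K := if q ∣ n then coeff (n / q) f else 0

/-- `f` is of type `p - a F + F ^ 2` -/
def Ty (A : Subring K) (p : ℕ) (a : K) (f : K⟦X⟧) : Prop :=
  ∀ n, coeff n f - a / p * cf p f n + 1 / p * cf (p * p) f n ∈ A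

/-- the ring of coefficients -/
structure Fr (A : Subring K) (p : ℕ) : Prop where
  pr : p.Prime
  ne : (p : K) ≠ 0
  fr : ∀ x ∈ A, ∃ y ∈ A, x ^ p - x = p * y

namespace Dw

variable {A : Subring K} {p q n : ℕ} {a : K} {f g φ ψ : K⟦X⟧}

theorem cf_eq (hq : q ≠ 0) (f : K⟦X⟧) (n : ℕ) : cf q f n = coeff n (expand q hq f) :=
  (coeff_expand q hq f).symm

theorem frob (h : Fr A p) (α : A⟦X⟧) : (p : A⟦X⟧) ∣ α ^ p - expand p h.pr.ne_zero α := by
  by_cases u : IsUnit (p : A)
  · exact (by simpa using u.map (C : A →+* A⟦X⟧) : IsUnit (p : A⟦X⟧)).dvd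
  have := Fact.mk h.pr
  have := CharP.quotient A p u
  set π := Ideal.Quotient.mk (Ideal.span {(p : A)})
  have e : frobenius (A ⧸ Ideal.span {(p : A)}) p = RingHom.id _ := RingHom.ext fun x => by
    obtain ⟨x, rfl⟩ := Ideal.Quotient.mk_surjective x
    obtain ⟨y, hy, e⟩ := h.fr x x.2
    rw [frobenius_def, RingHom.id_apply, ← map_pow, Ideal.Quotient.eq, Ideal.mem_span_singleton]
    exact ⟨⟨y, hy⟩, Subtype.ext (by simpa using e)⟩
  have k := MvPowerSeries.map_frobenius_expand p h.pr.ne_zero (f := map π α)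
  rw [e, MvPowerSeries.map_id] at k
  have z : map π (α ^ p - expand p h.pr.ne_zero α) = 0 := by
    rw [map_sub, map_pow, map_expand]
    exact sub_eq_zero.2 k.symm
  have c : ∀ n, ∃ y, coeff n (α ^ p - expand p h.pr.ne_zero α) = p * y := fun n => by
    have := congrArg (coeff n) z
    rw [coeff_map, map_zero, Ideal.Quotient.eq_zero_iff_mem, Ideal.mem_span_singleton] at this
    exact this
  choose y hy using c
  exact ⟨mk y, ext fun n => by rw [hy, ← map_natCast C, coeff_C_mul, coeff_mk]⟩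

theorem frob2 (h : Fr A p) (α : A⟦X⟧) :
    (p : A⟦X⟧) ∣ α ^ (p * p) - expand (p * p) (mul_ne_zero h.pr.ne_zero h.pr.ne_zero) α := by
  have a := (frob h α).trans (sub_dvd_pow_sub_pow _ _ p)
  have b := frob h (expand p h.pr.ne_zero α)
  rw [expand_mul p h.pr.ne_zero p h.pr.ne_zero, pow_mul]
  simpa using dvd_add a b

/-- the denominators -/
theorem den (h : Fr A p) (ha : a ∈ A) (t : Ty A p a f) (k : ℕ) :
    ∀ n, ¬p ^ (k + 1) ∣ n → (p : K) ^ k * coeff n f ∈ A := by
  induction k with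
  | zero =>
    intro n hn
    rw [zero_add, pow_one] at hn
    simpa [cf, hn, mt (dvd_of_mul_right_dvd (a := p) (b := p)) hn] using t n
  | succ k ih =>
    intro n hn
    have c : ∀ q, p ∣ q → (p : K) ^ k * cf q f n ∈ A := fun q hq => by
      unfold cf
      split_ifs with d
      · refine ih _ fun e => hn ?_
        rw [← Nat.mul_div_cancel' d, pow_succ']
        exact mul_dvd_mul hq e
      · simpa using zero_mem A
    have e : (p : K) ^ (k + 1) * coeff n f = p ^ (k + 1) * (coeff n f - a / p * cf p f n +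
        1 / p * cf (p * p) f n) + a * (p ^ k * cf p f n) - p ^ k * cf (p * p) f n := by
      have := h.ne
      field_simp
      ring
    rw [e]
    exact sub_mem (add_mem (mul_mem (pow_mem (natCast_mem A p) _) (t n)) (mul_mem ha
      (c p dvd_rfl))) (c _ (dvd_mul_right _ _))

theorem hs (h : constantCoeff φ = 0) : HasSubst φ := .of_constantCoeff_zero' h

theorem sub_eq (h : constantCoeff φ = 0) (k : constantCoeff ψ = 0) (f : K⟦X⟧) (n : ℕ) :
    coeff n (f.subst φ) - coeff n (f.subst ψ) = ∑ᶠ d, coeff d f * coeff n (φ ^ d - ψ ^ d) := by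
  rw [coeff_subst' (hs h), coeff_subst' (hs k), ← finsum_sub_distrib
    (coeff_subst_finite' (hs h) f n) (coeff_subst_finite' (hs k) f n)]
  simp [mul_sub]

theorem trunc_eq (h : constantCoeff φ = 0) (k : constantCoeff ψ = 0) (d : X ^ (n + 1) ∣ φ - ψ)
    (f : K⟦X⟧) : coeff n (f.subst φ) = coeff n (f.subst ψ) := by
  rw [← sub_eq_zero, sub_eq h k]
  exact finsum_eq_zero_of_forall_eq_zero fun i => by
    rw [X_pow_dvd_iff.1 (d.trans (sub_dvd_pow_sub_pow _ _ i)) n n.lt_succ_self, mul_zero]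

theorem pow_dvd (h : constantCoeff φ = 0) (k : constantCoeff ψ = 0) (d : X ^ n ∣ φ - ψ)
    (hq : 2 ≤ q) : X ^ (n + 1) ∣ φ ^ q - ψ ^ q := by
  rw [← (Commute.all φ ψ).mul_geom_sum₂, pow_succ]
  refine mul_dvd_mul d (Finset.dvd_sum fun i hi => ?_)
  rcases i with _ | i
  · exact (dvd_pow (X_dvd_iff.2 k) (by omega)).mul_left _
  · exact (dvd_pow (X_dvd_iff.2 h) i.succ_ne_zero).mul_right _

theorem lead (h : constantCoeff φ = 0) (k : constantCoeff ψ = 0) (d : X ^ n ∣ φ - ψ) (f : K⟦X⟧) :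
    coeff n (f.subst φ) - coeff n (f.subst ψ) = coeff 1 f * coeff n (φ - ψ) := by
  rw [sub_eq h k, finsum_eq_single _ 1, pow_one, pow_one]
  intro i hi
  rcases i with _ | i
  · simp
  · rw [X_pow_dvd_iff.1 (pow_dvd h k d (by omega)) n n.lt_succ_self, mul_zero]

variable (A) in
/-- the inclusion -/
abbrev ii : A⟦X⟧ →+* K⟦X⟧ := map A.subtype

theorem ii_mem (α : A⟦X⟧) (n : ℕ) : coeff n (ii A α) ∈ A := by
  rw [coeff_map]
  exact (coeff n α).2

theorem ex_ii (h : ∀ n, coeff n f ∈ A) : ∃ α, ii A α = f :=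
  ⟨mk fun n => ⟨_, h n⟩, ext fun n => by simp⟩

theorem sub_mem' (hf : ∀ n, coeff n f ∈ A) {α : A⟦X⟧} (h : constantCoeff (ii A α) = 0) (n : ℕ) :
    coeff n (f.subst (ii A α)) ∈ A := by
  rw [coeff_subst' (hs h)]
  exact finsum_induction (· ∈ A) (zero_mem _) (fun _ _ => add_mem) fun d =>
    mul_mem (hf d) (by rw [← map_pow]; exact ii_mem _ _)

/-- congruent arguments give congruent values -/
theorem cong (h : Fr A p) (ha : a ∈ A) (t : Ty A p a f) {α β : A⟦X⟧}
    (h1 : constantCoeff (ii A α) = 0) (h2 : constantCoeff (ii A β) = 0) (d : (p : A⟦X⟧) ∣ α - β)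
    (n : ℕ) : 1 / p * (coeff n (f.subst (ii A α)) - coeff n (f.subst (ii A β))) ∈ A := by
  rw [sub_eq h1 h2]
  refine finsum_induction (fun x : K => 1 / (p : K) * x ∈ A) (by simpa using zero_mem A)
    (fun x y u v => by rw [mul_add]; exact add_mem u v) fun i => ?_
  rcases eq_or_ne i 0 with rfl | i0
  · simpa using zero_mem A
  obtain ⟨k, m, hm, rfl⟩ := Nat.exists_eq_pow_mul_and_not_dvd i0 p h.pr.ne_one
  obtain ⟨γ, e⟩ := (dvd_sub_pow_of_dvd_sub d k).trans (sub_dvd_pow_sub_pow _ _ m)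
  have c := den h ha t k (p ^ k * m) fun u => hm (by
    rwa [pow_succ, Nat.mul_dvd_mul_iff_left (pow_pos h.pr.pos k)] at u)
  rw [← map_pow, ← map_pow, ← map_sub, pow_mul, pow_mul, e, map_mul, map_pow, map_natCast,
    ← map_natCast C, ← map_pow, coeff_C_mul]
  have := h.ne
  rw [show 1 / (p : K) * (coeff (p ^ k * m) f * (p ^ (k + 1) * coeff n (ii A γ))) =
    p ^ k * coeff (p ^ k * m) f * coeff n (ii A γ) by field_simp; ring]
  exact mul_mem c (ii_mem _ _)

theorem key (h : Fr A p) (ha : a ∈ A) (t : Ty A p a f) (hq : q ≠ 0) (q2 : 2 ≤ q)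
    (F : ∀ α : A⟦X⟧, (p : A⟦X⟧) ∣ α ^ q - expand q hq α) (h0 : constantCoeff φ = 0) {α : A⟦X⟧}
    (h1 : constantCoeff (ii A α) = 0) (d : X ^ (n + 1) ∣ φ - ii A α) {m : ℕ} (hm : m ≤ n + 1) :
    1 / p * (coeff m ((expand q hq f).subst φ) - coeff m (expand q hq (f.subst φ))) ∈ A := by
  have e1 : (expand q hq f).subst φ = f.subst (φ ^ q) := by
    rw [expand_apply, subst_comp_subst_apply (.X_pow hq) (hs h0), subst_pow (hs h0),
      subst_X (hs h0)]
  have e2 : expand q hq (f.subst φ) = f.subst (expand q hq φ) := expand_subst q hq (hs h0) f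
  have z : ∀ ψ : K⟦X⟧, constantCoeff ψ = 0 → constantCoeff (ψ ^ q) = 0 := fun ψ k => by
    rw [map_pow, k, zero_pow hq]
  have d1 : X ^ (m + 1) ∣ φ ^ q - ii A α ^ q :=
    (pow_dvd_pow _ (by omega)).trans (pow_dvd h0 h1 d q2)
  have d2 : X ^ (m + 1) ∣ expand q hq φ - expand q hq (ii A α) := by
    have := map_dvd (expand q hq) d
    rw [map_pow, expand_X, ← pow_mul, map_sub] at this
    exact (pow_dvd_pow _ (by nlinarith)).trans this
  rw [e1, e2, trunc_eq (z _ h0) (z _ h1) d1, trunc_eq (by rwa [constantCoeff_expand])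
    (by rwa [constantCoeff_expand]) d2, ← map_pow, ← map_expand]
  exact cong h ha t (by rw [map_pow]; exact z _ h1) (by rwa [map_expand, constantCoeff_expand])
    (F α) m

/-- the integral series of a type -/
def hh (p : ℕ) (a : K) (f : K⟦X⟧) : K⟦X⟧ :=
  mk fun n => coeff n f - a / p * cf p f n + 1 / p * cf (p * p) f n

theorem main (h : Fr A p) (ha : a ∈ A) (t : Ty A p a f) (h0 : constantCoeff φ = 0) {α : A⟦X⟧}
    (h1 : constantCoeff (ii A α) = 0) (d : X ^ (n + 1) ∣ φ - ii A α) {m : ℕ} (hm : m ≤ n + 1) :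
    coeff m ((hh p a f).subst φ) - coeff m (hh p a (f.subst φ)) ∈ A := by
  have p0 := h.pr.ne_zero
  have p2 := h.pr.two_le
  have k1 := key h ha t p0 p2 (frob h) h0 h1 d hm
  have k2 := key h ha t (mul_ne_zero p0 p0) (by nlinarith) (frob2 h) h0 h1 d hm
  have e : ∀ f : K⟦X⟧, hh p a f = f - (a / p) • expand p p0 f +
      (1 / p : K) • expand (p * p) (mul_ne_zero p0 p0) f := fun f => ext fun n => by
    simp [hh, cf_eq p0, cf_eq (mul_ne_zero p0 p0)]
  rw [e, e, subst_add (hs h0), subst_sub (hs h0), subst_smul (hs h0), subst_smul (hs h0)]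
  simp only [map_add, map_sub, coeff_smul, smul_eq_mul]
  refine (congrArg (· ∈ A) ?_).mp (sub_mem k2 (mul_mem ha k1))
  ring

end Dw

open Dw

variable {A : Subring K} {p : ℕ} {a : K} {f φ : K⟦X⟧}

/-- **two series of the same type differ by an integral substitution** -/
theorem dwk (h : Fr A p) (ha : a ∈ A) (t : Ty A p a f) (f1 : coeff 1 f = 1)
    (h0 : constantCoeff φ = 0) (t' : Ty A p a (f.subst φ)) (n : ℕ) : coeff n φ ∈ A := by
  induction n using Nat.strong_induction_on with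
  | _ n ih =>
  rcases n with _ | n
  · rw [coeff_zero_eq_constantCoeff_apply, h0]
    exact zero_mem A
  obtain ⟨α, e⟩ := ex_ii (A := A) (f := mk fun m => if m < n + 1 then coeff m φ else 0) fun m => by
    rw [coeff_mk]
    split_ifs with k
    exacts [ih m k, zero_mem A]
  have h1 : constantCoeff (ii A α) = 0 := by
    rw [e, ← coeff_zero_eq_constantCoeff_apply, coeff_mk, if_pos n.succ_pos,
      coeff_zero_eq_constantCoeff_apply, h0]
  have d : X ^ (n + 1) ∣ φ - ii A α := X_pow_dvd_iff.2 fun m k => by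
    rw [e, map_sub, coeff_mk, if_pos k, sub_self]
  have k := lead h0 h1 d (hh p a f)
  have c : coeff 1 (hh p a f) = 1 := by
    have : ¬ p * p ∣ 1 := mt dvd_of_mul_right_dvd h.pr.not_dvd_one
    simp [hh, cf, f1, this, h.pr.not_dvd_one]
  rw [c, one_mul, map_sub, e, coeff_mk, if_neg (lt_irrefl _), sub_zero, ← e] at k
  rw [← k]
  refine sub_mem ?_ (sub_mem' (fun m => by rw [hh, coeff_mk]; exact t m) h1 _)
  simpa using add_mem (main h ha t h0 h1 d le_rfl) (show coeff (n + 1) (hh p a (f.subst φ)) ∈ A by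
    rw [hh, coeff_mk]; exact t' _)

/-- an integral substitution keeps the type -/
theorem ty_subst (h : Fr A p) (ha : a ∈ A) (t : Ty A p a f) (h0 : constantCoeff φ = 0)
    (hφ : ∀ n, coeff n φ ∈ A) : Ty A p a (f.subst φ) := fun n => by
  obtain ⟨α, rfl⟩ := ex_ii hφ
  have := sub_mem (sub_mem' (f := hh p a f) (fun m => by rw [hh, coeff_mk]; exact t m) h0 n)
    (main (n := n) h ha t h0 h0 (by simp) n.le_succ)
  rwa [sub_sub_cancel, hh, coeff_mk] at this

/-- the substitution exists -/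
theorem ex_subst (f0 : constantCoeff f = 0) (f1 : coeff 1 f = 1) {g : K⟦X⟧}
    (g0 : constantCoeff g = 0) : ∃ φ : K⟦X⟧, constantCoeff φ = 0 ∧ coeff 1 φ = coeff 1 g ∧
      f.subst φ = g := by
  have u : IsUnit (coeff 1 f) := f1 ▸ isUnit_one
  have s := HasSubst.substInvOfIsUnit f u
  have z : constantCoeff ((f.substInvOfIsUnit u).subst g) = 0 :=
    constantCoeff_subst_eq_zero g0 _ (constantCoeff_substInvOfIsUnit f u)
  have e : f.subst ((f.substInvOfIsUnit u).subst g) = g := by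
    rw [← subst_comp_subst_apply s (hs g0), subst_substInvOfIsUnit_right f f0 u, subst_X (hs g0)]
  refine ⟨_, z, ?_, e⟩
  have := lead (n := 1) z (map_zero _) (by rw [pow_one, sub_zero]; exact X_dvd_iff.2 z) f
  rw [e, f1, one_mul, sub_zero, subst_zero_of_constantCoeff_zero f0] at this
  simpa using this.symm

end Vale.Agent.P014T.Ig
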