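import Vale.Agent.P014T.Ig.Dwk

/-!
# P014 T, block ISOG: global denominators of the substitution
-/

open PowerSeries

set_option linter.all false

noncomputable section

namespace Vale.Agent.P014T.Ig

open Dw

/-- the rational numbers with denominator prime to `p` -/
def Zl (p : ℕ) : Subring ℚ where
  carrier := {x | x.den.Coprime p}
  mul_mem' {a b} h k := (Nat.Coprime.mul_left h k).coprime_dvd_left (Rat.mul_den_dvd a b)
  one_mem' := by simp
  add_mem' {a b} h k := (Nat.Coprime.mul_left h k).coprime_dvd_left (Rat.add_den_dvd a b)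
  zero_mem' := by simp
  neg_mem' h := by simpa using h

theorem mem_Zl {p : ℕ} {x : ℚ} : x ∈ Zl p ↔ x.den.Coprime p := Iff.rfl

theorem inv_Zl {p m : ℕ} (h : m.Coprime p) : (m : ℚ)⁻¹ ∈ Zl p := by
  rw [mem_Zl, Rat.inv_natCast_den]
  split_ifs
  exacts [Nat.coprime_one_left p, h]

theorem fr_Zl {p : ℕ} (hp : p.Prime) : Fr (Zl p) p := by
  refine ⟨hp, Nat.cast_ne_zero.2 hp.ne_zero, fun x hx => ?_⟩
  have := Fact.mk hp
  obtain ⟨c, e⟩ : (p : ℤ) ∣ x.num ^ p * x.den - x.num * x.den ^ p := by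
    rw [← ZMod.intCast_zmod_eq_zero_iff_dvd]
    simp [ZMod.pow_card]
  refine ⟨c * (x.den : ℚ)⁻¹ ^ (p + 1), mul_mem (intCast_mem _ c) (pow_mem (inv_Zl hx) _), ?_⟩
  have e' : (x.num : ℚ) ^ p * x.den - x.num * x.den ^ p = p * c := by exact_mod_cast e
  have d : (x.den : ℚ) ≠ 0 := Nat.cast_ne_zero.2 x.den_nz
  rw [← mul_assoc, ← e', ← Rat.mul_den_eq_num x, inv_pow]
  field_simp
  ring

theorem int_of_Zl {x : ℚ} (h : ∀ p : ℕ, p.Prime → x ∈ Zl p) : ∃ z : ℤ, x = z :=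
  ⟨x.num, ((Rat.den_eq_one_iff x).1 (Nat.eq_one_iff_not_exists_prime_dvd.2 fun p hp d =>
    hp.ne_one ((h p hp).symm.eq_one_of_dvd d))).symm⟩

section

variable {K : Type*} [Field K] {A : Subring K} {f φ : K⟦X⟧}

/-- the inverse of an integral series is integral -/
theorem int_of (hf : ∀ n, coeff n f ∈ A) (f1 : coeff 1 f = 1) (h0 : constantCoeff φ = 0)
    (hg : ∀ n, coeff n (f.subst φ) ∈ A) (n : ℕ) : coeff n φ ∈ A := by
  induction n using Nat.strong_induction_on with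
  | _ n ih =>
  rcases n with _ | n
  · rw [coeff_zero_eq_constantCoeff_apply, h0]
    exact zero_mem A
  obtain ⟨α, e⟩ := ex_ii (A := A) (f := mk fun m => if m < n + 1 then coeff m φ else 0) fun m => by
    rw [coeff_mk]
    split_ifs with k
    exacts [ih m k, zero_mem A]
  have h1 : constantCoeff (ii A α) = 0 := by
    rw [e, ← coeff_zero_eq_constantCoeff_apply, coeff_mk, if_pos n.succ_pos,
      coeff_zero_eq_constantCoeff_apply, h0]
  have k := lead h0 h1 (X_pow_dvd_iff.2 fun m k => by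
    rw [e, map_sub, coeff_mk, if_pos k, sub_self] : X ^ (n + 1) ∣ φ - ii A α) f
  rw [f1, one_mul, map_sub, e, coeff_mk, if_neg (lt_irrefl _), sub_zero, ← e] at k
  exact k ▸ sub_mem (hg _) (sub_mem' hf h1 _)

theorem scale {c : K} (hc : c ≠ 0) (h0 : constantCoeff φ = 0) :
    (c⁻¹ • rescale c f).subst (c⁻¹ • rescale c φ) = c⁻¹ • rescale c (f.subst φ) := by
  have z : constantCoeff (c⁻¹ • rescale c φ) = 0 := by
    rw [← coeff_zero_eq_constantCoeff_apply, coeff_smul, coeff_rescale,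
      coeff_zero_eq_constantCoeff_apply, h0, mul_zero, smul_zero]
  rw [subst_smul (hs z), rescale_eq_subst c f, subst_comp_subst_apply (.smul_X' c) (hs z),
    subst_smul (hs z), subst_X (hs z), smul_smul, mul_inv_cancel₀ hc, one_smul,
    rescale_eq_subst c (f.subst φ), subst_comp_subst_apply (hs h0) (.smul_X' c), rescale_eq_subst]

end

theorem sc_mem {S p : ℕ} (hS : 0 < S) (hp : p.Prime) (d : p ∣ S) {f : ℚ⟦X⟧}
    (f0 : constantCoeff f = 0) (h : ∀ n : ℕ, n * coeff n f ∈ Zl p) (n : ℕ) :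
    coeff n ((S : ℚ)⁻¹ • rescale (S : ℚ) f) ∈ Zl p := by
  rw [coeff_smul, coeff_rescale, smul_eq_mul]
  rcases n with _ | n
  · rw [coeff_zero_eq_constantCoeff_apply, f0]
    simpa using zero_mem (Zl p)
  obtain ⟨k, m, hm, e⟩ := Nat.exists_eq_pow_mul_and_not_dvd n.succ_ne_zero p hp.ne_one
  have m0 : m ≠ 0 := fun z => hm (z ▸ dvd_zero p)
  have le : k ≤ n := by
    have := Nat.lt_pow_self hp.one_lt (n := k)
    have := Nat.le_mul_of_pos_right (p ^ k) m0.bot_lt
    omega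
  obtain ⟨c, hc⟩ := (pow_dvd_pow p le).trans (pow_dvd_pow_of_dvd d n)
  have e1 : (S : ℚ) ^ n = p ^ k * c := by exact_mod_cast hc
  have e2 : ((n + 1 : ℕ) : ℚ) = p ^ k * m := by exact_mod_cast e
  have := mul_mem (mul_mem (natCast_mem _ c) (inv_Zl ((hp.coprime_iff_not_dvd).2 hm).symm))
    (h (n + 1))
  refine (congrArg (· ∈ Zl p) ?_).mp this
  have s0 : (S : ℚ) ≠ 0 := Nat.cast_ne_zero.2 hS.ne'
  have m1 : (m : ℚ) ≠ 0 := Nat.cast_ne_zero.2 m0
  rw [e2, pow_succ, e1]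
  field_simp

/-- **the global step** -/
theorem glob {S : ℕ} (hS : 0 < S) {a : ℕ → ℤ} {f g φ : ℚ⟦X⟧} (f0 : constantCoeff f = 0)
    (f1 : coeff 1 f = 1) (h0 : constantCoeff φ = 0) (e : f.subst φ = g)
    (hf : ∀ p : ℕ, p.Prime → p ∣ S → ∀ n : ℕ, n * coeff n f ∈ Zl p ∧ n * coeff n g ∈ Zl p)
    (ht : ∀ p : ℕ, p.Prime → ¬p ∣ S → Ty (Zl p) p (a p) f ∧ Ty (Zl p) p (a p) g) (n : ℕ) :
    ∃ z : ℤ, (S : ℚ) ^ n * coeff n φ = z := by
  subst e
  refine int_of_Zl fun p hp => ?_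
  have s0 : (S : ℚ) ≠ 0 := Nat.cast_ne_zero.2 hS.ne'
  by_cases d : p ∣ S
  · have z : constantCoeff ((S : ℚ)⁻¹ • rescale (S : ℚ) φ) = 0 := by
      rw [← coeff_zero_eq_constantCoeff_apply, coeff_smul, coeff_rescale,
        coeff_zero_eq_constantCoeff_apply, h0, mul_zero, smul_zero]
    have := int_of (sc_mem hS hp d f0 fun n => (hf p hp d n).1) (by
      rw [coeff_smul, coeff_rescale, f1, pow_one, mul_one, smul_eq_mul, inv_mul_cancel₀ s0]) z
      (fun n => by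
        rw [scale s0 h0]
        exact sc_mem hS hp d (constantCoeff_subst_eq_zero h0 f f0) (fun n => (hf p hp d n).2) n) n
    rw [coeff_smul, coeff_rescale, smul_eq_mul] at this
    simpa [s0] using mul_mem (natCast_mem _ S) this
  · exact mul_mem (pow_mem (natCast_mem _ S) _)
      (dwk (fr_Zl hp) (intCast_mem _ _) (ht p hp d).1 f1 h0 (ht p hp d).2 n)

end Vale.Agent.P014T.Ig
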