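import Mathlib

/-!
# P014 T, block ISOG: the `p`-th power of the invariant derivation of an elliptic curve
-/

set_option linter.all false

open Polynomial Finset

noncomputable section

namespace Vale.Agent.P014T.Ig.Pc

/-- a derivation -/
structure Dr {R : Type} [CommRing R] (D : R → R) : Prop where
  add : ∀ a b, D (a + b) = D a + D b
  mul : ∀ a b, D (a * b) = a * D b + b * D a

namespace Dr

variable {R : Type} [CommRing R] {D : R → R} (h : Dr D)
include h

/-- as a bundled derivation -/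
def der : Derivation ℤ R R :=
  Derivation.mk' (AddMonoidHom.mk' D h.add).toIntLinearMap fun a b => h.mul a b

theorem zero : D 0 = 0 := h.der.map_zero
theorem one : D 1 = 0 := h.der.map_one_eq_zero
theorem sub (a b : R) : D (a - b) = D a - D b := h.der.map_sub a b
theorem nat (n : ℕ) : D n = 0 := h.der.map_natCast n
theorem pow (a : R) (n : ℕ) : D (a ^ (n + 1)) = (n + 1 : ℕ) * a ^ n * D a := by
  have := h.der.leibniz_pow a (n + 1)
  rw [Nat.add_sub_cancel, nsmul_eq_mul, smul_eq_mul, ← mul_assoc] at this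
  exact this
theorem pow0 {a : R} (ha : D a = 0) (n : ℕ) : D (a ^ n) = 0 := by
  cases n with
  | zero => rw [pow_zero, h.one]
  | succ n => rw [h.pow, ha, mul_zero]

theorem it_add (n : ℕ) (a b : R) : D^[n] (a + b) = D^[n] a + D^[n] b := by
  induction n generalizing a b with
  | zero => rfl
  | succ n ih => simp only [Function.iterate_succ_apply, h.add, ih]

theorem it_zero (n : ℕ) : D^[n] 0 = 0 := Function.iterate_fixed h.zero n

theorem it_sum {ι : Type} (n : ℕ) (s : Finset ι) (f : ι → R) :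
    D^[n] (∑ i ∈ s, f i) = ∑ i ∈ s, D^[n] (f i) :=
  map_sum (AddMonoidHom.mk' D^[n] (h.it_add n)) f s

theorem it_sub (n : ℕ) (a b : R) : D^[n] (a - b) = D^[n] a - D^[n] b :=
  map_sub (AddMonoidHom.mk' D^[n] (h.it_add n)) a b

theorem it_c {c : R} (hc : D c = 0) (n : ℕ) (a : R) : D^[n] (c * a) = c * D^[n] a := by
  induction n generalizing a with
  | zero => rfl
  | succ n ih => simp only [Function.iterate_succ_apply, h.mul, hc, mul_zero, add_zero, ih]

theorem it_mul (n : ℕ) (a b : R) : D^[n] (a * b) =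
    ∑ ij ∈ antidiagonal n, n.choose ij.1 • (D^[ij.1] a * D^[ij.2] b) := by
  induction n with
  | zero => simp
  | succ n ih =>
    rw [sum_antidiagonal_choose_succ_nsmul (M := R) (fun i j => D^[i] a * D^[j] b) n,
      Function.iterate_succ_apply', ih, ← sum_add_distrib]
    refine (h.it_sum 1 _ _).trans (sum_congr rfl fun ⟨i, j⟩ hij => ?_)
    rw [n.choose_symm_of_eq_add (mem_antidiagonal.1 hij).symm, Function.iterate_one]
    simp only [Function.iterate_succ_apply', nsmul_eq_mul, h.mul, h.nat,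
      n.choose_symm_of_eq_add (mem_antidiagonal.1 hij).symm]
    ring

theorem it_top (s : R) (n : ℕ) (b : R) : s ∣ D^[n] (s ^ n * b) - n.factorial * (D s) ^ n * b := by
  induction n generalizing b with
  | zero => simp
  | succ n ih =>
    have e : D (s ^ (n + 1) * b) = s ^ n * ((n + 1 : ℕ) * D s * b + s * D b) := by
      rw [h.mul, h.pow]; ring
    obtain ⟨r, hr⟩ := ih ((n + 1 : ℕ) * D s * b + s * D b)
    refine ⟨r + n.factorial * D s ^ n * D b, ?_⟩
    rw [Function.iterate_succ_apply, e, Nat.factorial_succ, Nat.cast_mul]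
    linear_combination hr

theorem ex_pol : ∃ D' : R[X] → R[X], Dr D' ∧ (∀ a, D' (C a) = C (D a)) ∧ D' X = 0 ∧
    ∀ q i, (D' q).coeff i = D (q.coeff i) := by
  letI : Differential R := ⟨h.der⟩
  exact ⟨Differential.mapCoeffs (A := R), ⟨map_add _, fun a b => Derivation.leibniz _ a b⟩,
    Differential.mapCoeffs_C, Differential.mapCoeffs_X, fun _ _ => rfl⟩

variable {p : ℕ} [hp : Fact p.Prime]

theorem fr (p0 : (p : R) = 0) : Dr D^[p] := by
  refine ⟨h.it_add p, fun a b => ?_⟩
  rw [h.it_mul, Nat.sum_antidiagonal_eq_sum_range_succ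
    (fun i j => p.choose i • (D^[i] a * D^[j] b)) p, sum_range_succ,
    sum_eq_single_of_mem 0 (mem_range.2 hp.out.pos)]
  · simp [mul_comm]
  · intro i hi i0
    obtain ⟨c, hc⟩ := hp.out.dvd_choose_self i0 (mem_range.1 hi)
    rw [hc, nsmul_eq_mul, Nat.cast_mul, p0, zero_mul, zero_mul]

variable [Algebra (ZMod p) R]

omit h in
theorem p0 : (p : R) = 0 := by
  rw [← map_natCast (algebraMap (ZMod p) R), ZMod.natCast_self, map_zero]

omit h in
theorem un {j : ℕ} (hj : ¬ p ∣ j) : IsUnit (j : R) := by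
  rw [← map_natCast (algebraMap (ZMod p) R)]
  exact (Ne.isUnit fun e => hj ((ZMod.natCast_eq_zero_iff j p).1 e)).map _

theorem ex {j : ℕ} (hj : ¬ p ∣ j + 1) (u : R) :
    D^[p - 1] (u ^ j * D u) = u ^ j * D^[p] u := by
  have e := (h.fr (p := p) p0).pow u j
  have e2 : D^[p] (u ^ (j + 1)) = D^[p - 1] (D (u ^ (j + 1))) := by
    rw [← Function.iterate_succ_apply, Nat.succ_eq_add_one, Nat.sub_add_cancel hp.out.pos]
  rw [e2, h.pow, mul_assoc, h.it_c (h.nat _), mul_assoc] at e
  exact (un (R := R) hj).mul_left_cancel e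

theorem lg (u : R) : D^[p - 1] (u ^ (p - 1) * D u) = u ^ (p - 1) * D^[p] u - D u ^ p := by
  obtain ⟨D', h', hC, hX, -⟩ := h.ex_pol
  have hI : ∀ n a, D'^[n] (C a) = C (D^[n] a) := fun n a => by
    induction n generalizing a with
    | zero => rfl
    | succ n ih => rw [Function.iterate_succ_apply, hC, ih]; rfl
  obtain ⟨n, hn⟩ : ∃ n, p = n + 1 := ⟨p - 1, (Nat.sub_add_cancel hp.out.pos).symm⟩
  have hn' : p - 1 = n := by omega
  set s : R[X] := C u - X with hs
  have e1 : D' s = C (D u) := by rw [hs, h'.sub, hC, hX, sub_zero]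
  have e2 : D'^[p] s = C (D^[p] u) := by
    rw [hn, Function.iterate_succ_apply, e1, hI]; rfl
  have e3 : C (u ^ n) = ∑ j ∈ range (n + 1), X ^ (n - j) * (n.choose j : R[X]) * s ^ j := by
    rw [C_pow, show C u = s + X by rw [hs]; ring, add_pow]
    exact sum_congr rfl fun j _ => by ring
  have e4 : ∀ j ∈ range n, D'^[n] (X ^ (n - j) * (n.choose j : R[X]) * s ^ j * D' s) =
      X ^ (n - j) * (n.choose j : R[X]) * s ^ j * C (D^[p] u) := fun j hj => by
    have := h'.ex (p := p) (j := j) (Nat.not_dvd_of_pos_of_lt j.succ_pos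
      (by have := mem_range.1 hj; omega)) s
    rw [hn', e2] at this
    rw [mul_assoc, h'.it_c (by rw [h'.mul, h'.nat, h'.pow0 hX]; ring), this]; ring
  have e5 : C (D^[n] (u ^ n * D u)) = (C (u ^ n) - s ^ n) * C (D^[p] u) + D'^[n] (s ^ n * D' s) := by
    rw [← hI, C_mul, ← e1, e3, sum_mul, h'.it_sum, sum_range_succ, sum_range_succ, sum_congr rfl e4,
      ← sum_mul]
    simp
  obtain ⟨r, hr⟩ := h'.it_top s n (D' s)
  have e6 : ((n.factorial : ℕ) : R) = -1 := by
    rw [← map_natCast (algebraMap (ZMod p) R), ← hn', ZMod.wilsons_lemma, map_neg, map_one]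
  have e7 := congrArg (eval u) e5
  have e8 := congrArg (eval u) hr
  have n0 : n ≠ 0 := by have := hp.out.two_le; omega
  rw [e1] at e7 e8
  simp only [hs, eval_add, eval_mul, eval_sub, eval_C, eval_X, sub_self, eval_pow, zero_pow n0,
    eval_natCast, e6, zero_mul] at e7 e8
  rw [hn', e7]
  have : D u ^ p = D u ^ n * D u := by rw [← pow_succ, ← hn]
  linear_combination e8 + this

theorem gen {G : R[X]} (hG : ∀ i, D (G.coeff i) = 0) (hd : G.natDegree < 2 * p - 1) (u : R) :
    D^[p - 1] (G.eval u * D u) = G.eval u * D^[p] u - G.coeff (p - 1) * D u ^ p := by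
  have p2 := hp.out.two_le
  rw [eval_eq_sum_range' hd, sum_mul, sum_mul, h.it_sum]
  have hm : p - 1 ∈ range (2 * p - 1) := mem_range.2 (by omega)
  rw [← add_sum_erase _ _ hm, ← add_sum_erase _ _ hm, mul_assoc, h.it_c (hG _), h.lg,
    sum_congr rfl fun j hj => (?_ : _ = G.coeff j * u ^ j * D^[p] u)]
  · ring
  · rw [mul_assoc, h.it_c (hG _), h.ex, mul_assoc]
    rintro ⟨c, hc⟩
    have h1 := mem_range.1 (mem_of_mem_erase hj)
    have h2 := ne_of_mem_erase hj
    rcases c with _ | _ | c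
    · omega
    · omega
    · have : p * (c + 1 + 1) = p * c + 2 * p := by ring
      omega

end Dr

/-- the quartic `u ^ 4 f (1 / u)` -/
def ph {R : Type} [CommRing R] (a b : R) : R[X] := X + C a * X ^ 3 + C b * X ^ 4

/-- **`D ^ p = H D` on the curve** -/
theorem has {R : Type} [CommRing R] [IsDomain R] {D : R → R} (h : Dr D) {p m : ℕ} [hp : Fact p.Prime]
    [Algebra (ZMod p) R] (hm : p = 2 * m + 1) {a b u v : R} (ha : D a = 0) (hb : D b = 0)
    (v0 : v ≠ 0) (hu : D u = 2 * v) (hv : D v = 1 + 3 * a * u ^ 2 + 4 * b * u ^ 3) :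
    ∃ g, v ^ 2 - (u + a * u ^ 3 + b * u ^ 4) ∣ g - (ph a b ^ m).coeff (2 * m) ∧
      D^[p] u = g * D u ∧ D^[p] v = g * D v := by
  set c := v ^ 2 - (u + a * u ^ 3 + b * u ^ 4) with hc
  have c0 : D c = 0 := by
    simp only [hc, h.sub, h.add, h.mul, h.pow, ha, hb, hu, hv]; push_cast; ring
  obtain ⟨D', h', hC, hX, hco⟩ := h.ex_pol
  have hG : ∀ i, D (((ph a b + C c) ^ m).coeff i) = 0 := fun i => by
    rw [← hco, h'.pow0, coeff_zero]
    simp [ph, h'.add, h'.mul, hC, hX, h'.pow0 hX, ha, hb, c0]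
  have d4 : (ph a b + C c).natDegree ≤ 4 := by unfold ph; compute_degree
  have e := h.gen (p := p) hG (natDegree_pow_le.trans_lt
    ((Nat.mul_le_mul_left m d4).trans_lt (by omega))) u
  have e1 : ((ph a b + C c) ^ m).eval u = v ^ (2 * m) := by
    rw [eval_pow, pow_mul]; congr 1; simp [ph, hc]
  have m0 : m ≠ 0 := by have := hp.out.two_le; omega
  have p0 : ((2 * m + 1 : ℕ) : R) = 0 := hm ▸ Dr.p0
  have e2 : D^[p - 1] (v ^ (2 * m) * D u) = 0 := by
    rw [show p - 1 = (2 * m - 1) + 1 by omega, Function.iterate_succ_apply, hu,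
      show v ^ (2 * m) * (2 * v) = (2 : ℕ) * v ^ (2 * m + 1) by push_cast; ring, h.mul, h.nat, h.pow,
      p0]
    simpa using h.it_zero _
  have t2 : (2 : R) ^ p = 2 := by
    rw [← map_ofNat (algebraMap (ZMod p) R) 2, ← map_pow, ZMod.pow_card]
  have u2 : IsUnit ((2 : ℕ) : R) := Dr.un (p := p) fun k => by
    have := Nat.le_of_dvd two_pos k; omega
  rw [e1, e2, show p - 1 = 2 * m by omega, hu, mul_pow, t2] at e
  set g := ((ph a b + C c) ^ m).coeff (2 * m)
  have e3 : D^[p] u = g * D u := mul_left_cancel₀ (pow_ne_zero (2 * m) v0) (by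
    have : v ^ p = v ^ (2 * m) * v := by rw [← pow_succ, ← hm]
    rw [hu]; linear_combination -e + 2 * g * this)
  refine ⟨g, ?_, e3, u2.mul_left_cancel ?_⟩
  · have := sub_dvd_pow_sub_pow (ph a b + C c) (ph a b) m
    rw [add_sub_cancel_left, C_dvd_iff_dvd_coeff] at this
    simpa using this (2 * m)
  · have e4 : D (D^[p] u) = D^[p] (D u) := by
      rw [← Function.iterate_succ_apply' D, Function.iterate_succ_apply]
    have e5 : D u = (2 : ℕ) * v := by rw [hu]; simp
    rw [e3, e5, h.it_c (h.nat _), h.mul, hG, h.mul, h.nat] at e4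
    linear_combination -e4

end Vale.Agent.P014T.Ig.Pc
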