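import Vale.Agent.P014T.Ig.V
import Vale.Agent.P014T.Ig.Pc0

/-!
# P014 T, block ISOG: divisibility of the first derivative which does not vanish
-/

set_option linter.all false

open MvPolynomial

noncomputable section

namespace Vale.Agent.P014T.Ig.Pc

section
variable {k : Type} [CommRing k] (A B A' B' : k)

theorem dr : Dr (Vk k A B A' B') := ⟨vk_add A B A' B', vk_mul A B A' B'⟩

/-- the two equations -/
def c1 : MvPolynomial (Fin 4) k := X 1 ^ 2 - (X 0 + C A * X 0 ^ 3 + C B * X 0 ^ 4)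
def c2 : MvPolynomial (Fin 4) k := X 3 ^ 2 - (X 2 + C A * X 2 ^ 3 + C B * X 2 ^ 4)

theorem v_c1 : Vk k A B A' B' (c1 A B) = 0 := by
  have h := dr A B A' B'
  simp only [c1, h.sub, h.add, h.mul, h.pow, vkC, vk0, vk1]; push_cast; ring

theorem v_c2 : Vk k A B A' B' (c2 A' B') = 0 := by
  have h := dr A B A' B'
  simp only [c2, h.sub, h.add, h.mul, h.pow, vkC, vk2, vk3]; push_cast; ring

theorem map_vk {l : Type} [CommRing l] (f : k →+* l) (P : MvPolynomial (Fin 4) k) :
    map f (Vk k A B A' B' P) = Vk l (f A) (f B) (f A') (f B') (map f P) := by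
  induction P using MvPolynomial.induction_on with
  | C a => rw [map_C, vkC, vkC, map_zero]
  | add P Q hP hQ => rw [vk_add, map_add, hP, hQ, map_add, vk_add]
  | mul_X P i hP =>
    rw [vk_mul, map_add, map_mul, map_mul, map_mul, vk_mul, hP, map_X]
    congr 2
    fin_cases i
    · exact (congrArg _ (vk0 ..)).trans (Eq.trans (by simp [map_ofNat]) (vk0 ..).symm)
    · exact (congrArg _ (vk1 ..)).trans (Eq.trans (by simp [map_ofNat]) (vk1 ..).symm)
    · exact (congrArg _ (vk2 ..)).trans (Eq.trans (by simp [map_ofNat]) (vk2 ..).symm)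
    · exact (congrArg _ (vk3 ..)).trans (Eq.trans (by simp [map_ofNat]) (vk3 ..).symm)

theorem co_ph (m i : ℕ) : (ph (C A : MvPolynomial (Fin 4) k) (C B) ^ m).coeff i =
    C ((ph A B ^ m).coeff i) := by
  rw [← Polynomial.coeff_map, Polynomial.map_pow]
  simp [ph]

end

theorem key0 {p m : ℕ} [hp : Fact p.Prime] (hm : p = 2 * m + 1) {A B A' B' h : ZMod p}
    (h1 : h = (ph A B ^ m).coeff (2 * m)) (h2 : h = (ph A' B' ^ m).coeff (2 * m))
    (P : MvPolynomial (Fin 4) (ZMod p)) : ∃ x y,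
      (Vk _ A B A' B')^[p] P - C h * Vk _ A B A' B' P = x * c1 A B + y * c2 A' B' := by
  have d := dr A B A' B'
  have f := d.fr (p := p) Dr.p0
  obtain ⟨g, ⟨r, hr⟩, e0, e1⟩ := has d hm (vkC A B A' B' A) (vkC A B A' B' B) (X_ne_zero 1)
    (vk0 A B A' B') (vk1 A B A' B')
  obtain ⟨g', ⟨r', hr'⟩, e2, e3⟩ := has d hm (vkC A B A' B' A') (vkC A B A' B' B') (X_ne_zero 3)
    (vk2 A B A' B') (vk3 A B A' B')
  rw [co_ph, ← h1] at hr
  rw [co_ph, ← h2] at hr'
  induction P using MvPolynomial.induction_on with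
  | C a =>
    refine ⟨0, 0, ?_⟩
    have : ∀ n, (Vk _ A B A' B')^[n + 1] (C a) = 0 := fun n => by
      rw [Function.iterate_succ_apply, vkC, d.it_zero]
    have e := this (p - 1)
    rw [Nat.sub_add_cancel hp.out.pos] at e
    rw [e, vkC]; simp
  | add P Q hP hQ =>
    obtain ⟨x, y, e⟩ := hP
    obtain ⟨x', y', e'⟩ := hQ
    exact ⟨x + x', y + y', by rw [f.add, d.add]; linear_combination e + e'⟩
  | mul_X P i hP =>
    obtain ⟨x, y, e⟩ := hP
    have : ∃ x' y', (Vk _ A B A' B')^[p] (X i) - C h * Vk _ A B A' B' (X i) =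
        x' * c1 A B + y' * c2 A' B' := by
      fin_cases i
      · exact ⟨r * Vk _ A B A' B' (X 0), 0, (congrArg (· - _) e0).trans (by
          simp only [c1, Fin.zero_eta]; linear_combination Vk _ A B A' B' (X 0) * hr)⟩
      · exact ⟨r * Vk _ A B A' B' (X 1), 0, (congrArg (· - _) e1).trans (by
          simp only [c1, Fin.mk_one]; linear_combination Vk _ A B A' B' (X 1) * hr)⟩
      · exact ⟨0, r' * Vk _ A B A' B' (X 2), (congrArg (· - _) e2).trans (by
          simp only [c2, Fin.reduceFinMk]; linear_combination Vk _ A B A' B' (X 2) * hr')⟩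
      · exact ⟨0, r' * Vk _ A B A' B' (X 3), (congrArg (· - _) e3).trans (by
          simp only [c2, Fin.reduceFinMk]; linear_combination Vk _ A B A' B' (X 3) * hr')⟩
    obtain ⟨x', y', e'⟩ := this
    exact ⟨X i * x + P * x', X i * y + P * y', by
      rw [f.mul, d.mul]; linear_combination X i * e + P * e'⟩

variable {A B A' B' : ℤ}

theorem drV : Dr (V A B A' B') := dr A B A' B'

theorem cf_add (P Q) (n : ℕ) : cf A B A' B' (P + Q) n = cf A B A' B' P n + cf A B A' B' Q n := by
  rw [cf, drV.it_add, map_add]; rfl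

theorem cf_sub (P Q) (n : ℕ) : cf A B A' B' (P - Q) n = cf A B A' B' P n - cf A B A' B' Q n := by
  rw [cf, drV.it_sub, map_sub]; rfl

theorem cf_C (a : ℤ) (P) (n : ℕ) : cf A B A' B' (C a * P) n = a * cf A B A' B' P n := by
  rw [cf, drV.it_c (vkC ..), map_mul, constantCoeff_C]; rfl

theorem cf_it (P) (j n : ℕ) : cf A B A' B' ((V A B A' B')^[j] P) n = cf A B A' B' P (n + j) := by
  rw [cf, cf, Function.iterate_add_apply]

theorem key {p m : ℕ} [hp : Fact p.Prime] (hm : p = 2 * m + 1) {h : ℤ}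
    (h1 : (h : ZMod p) = (ph (A : ZMod p) B ^ m).coeff (2 * m))
    (h2 : (h : ZMod p) = (ph (A' : ZMod p) B' ^ m).coeff (2 * m)) (P) : ∃ Q, ∀ n,
      cf A B A' B' P (n + p) - h * cf A B A' B' P (n + 1) = p * cf A B A' B' Q n := by
  set f := Int.castRingHom (ZMod p)
  obtain ⟨x, y, e⟩ := key0 hm h1 h2 (map f P)
  obtain ⟨x, rfl⟩ := map_surjective f (ZMod.ringHom_surjective f) x
  obtain ⟨y, rfl⟩ := map_surjective f (ZMod.ringHom_surjective f) y
  have hI : ∀ n P, map f ((V A B A' B')^[n] P) =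
      (Vk (ZMod p) A B A' B')^[n] (map f P) := fun n P => by
    induction n generalizing P with
    | zero => rfl
    | succ n ih => rw [Function.iterate_succ_apply, ih, V, map_vk]; rfl
  obtain ⟨Q, hQ⟩ := (C_dvd_iff_zmod p ((V A B A' B')^[p] P - C h * V A B A' B' P -
      (c1 A B * x + c2 A' B' * y))).2 (by
    have e1 : map f (c1 A B) = c1 (A : ZMod p) B := by simp [c1, f]
    have e2 : map f (c2 A' B') = c2 (A' : ZMod p) B' := by simp [c2, f]
    have e3 := hI 1 P
    simp only [Function.iterate_one] at e3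
    rw [map_sub, map_sub, map_add, map_mul, map_mul, map_mul, hI, e1, e2, e3, map_C]
    exact sub_eq_zero.2 (e.trans (by ring)))
  refine ⟨Q, fun n => ?_⟩
  have z1 : cf A B A' B' (c1 A B * x) n = 0 := by
    rw [cf, drV.it_c (v_c1 ..), map_mul]; simp [c1]
  have z2 : cf A B A' B' (c2 A' B' * y) n = 0 := by
    rw [cf, drV.it_c (v_c2 ..), map_mul]; simp [c2]
  have := congrArg (cf A B A' B' · n) hQ
  simp only [cf_sub, cf_add, cf_C, cf_it, z1, z2] at this
  rw [← this, ← cf_it P 1]
  simp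

/-- **the first derivative which does not vanish is divisible by `p ^ (n / p)`** -/
theorem dvd_cf {p m : ℕ} [hp : Fact p.Prime] (hm : p = 2 * m + 1) {h : ℤ}
    (h1 : (h : ZMod p) = (ph (A : ZMod p) B ^ m).coeff (2 * m))
    (h2 : (h : ZMod p) = (ph (A' : ZMod p) B' ^ m).coeff (2 * m)) (P) (n : ℕ)
    (hz : ∀ k < n, cf A B A' B' P k = 0) : (p : ℤ) ^ (n / p) ∣ cf A B A' B' P n := by
  induction n using Nat.strong_induction_on generalizing P with
  | _ n ih =>
    have p2 := hp.out.two_le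
    rcases lt_or_ge n p with l | l
    · rw [Nat.div_eq_of_lt l, pow_zero]; exact one_dvd _
    · obtain ⟨j, rfl⟩ := Nat.exists_eq_add_of_le' l
      obtain ⟨Q, hQ⟩ := key hm h1 h2 P
      have e := hQ j
      rw [hz (j + 1) (by omega), mul_zero, sub_zero] at e
      rw [e, Nat.add_div_right _ hp.out.pos, pow_succ']
      refine mul_dvd_mul_left _ (ih j (by omega) Q fun i hi => ?_)
      have e' := hQ i
      rw [hz (i + 1) (by omega), hz (i + p) (by omega), mul_zero, sub_zero] at e'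
      exact (mul_eq_zero.1 e'.symm).resolve_left (by exact_mod_cast hp.out.ne_zero)

end Vale.Agent.P014T.Ig.Pc
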