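import Vale.Agent.P027H.Add

/-!
# P014 (ISOG): an algebraic relation between two Weierstrass functions makes the lattices
commensurable
-/

open Filter Topology Polynomial

namespace Vale.Agent.P014T.Ig

open P027H

variable {Λ Λ' : Submodule ℤ ℂ}

theorem lat_countable (h : IsLat Λ) : (Λ : Set ℂ).Countable := by
  obtain ⟨L, rfl⟩ := h
  refine (Set.countable_range fun p : ℤ × ℤ => (p.1 : ℂ) * L.ω₁ + p.2 * L.ω₂).mono ?_
  intro z hz
  obtain ⟨m, n, e⟩ := PeriodPair.mem_lattice.1 hz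
  exact ⟨(m, n), e⟩

theorem wp_ev_ne (h : IsLat Λ) : ∀ᶠ z in 𝓝[≠] (0 : ℂ), wp Λ z ≠ 0 := by
  filter_upwards [h.tendsto_wp.eventually_ne one_ne_zero] with z hz e
  exact hz (by rw [e, mul_zero])

theorem ex_avoid {B : Set ℂ} (hB : B.Countable) {z : ℂ} {p : ℂ → Prop} (hp : ∀ᶠ x in 𝓝[≠] z, p x) :
    ∃ x, x ∉ B ∧ p x := by
  rw [eventually_nhdsWithin_iff] at hp
  have hd : Dense (insert z B)ᶜ := (hB.insert z).dense_compl ℂ
  obtain ⟨x, hx, hx'⟩ := hd.inter_nhds_nonempty hp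
  rw [Set.mem_compl_iff, Set.mem_insert_iff, not_or] at hx
  exact ⟨x, hx.2, hx' hx.1⟩

/-- the polynomial with reversed coefficients -/
noncomputable def rv {d : ℕ} (c : Fin (d + 1) → ℂ) : ℂ[X] := ∑ i, C (c i) * X ^ (d - i)

theorem rv_eval {d : ℕ} (c : Fin (d + 1) → ℂ) (x : ℂ) :
    (rv c).eval x = ∑ i, c i * x ^ (d - i) := by
  simp [rv, eval_finsetSum]

theorem rv_deg {d : ℕ} (c : Fin (d + 1) → ℂ) : (rv c).natDegree ≤ d := by
  refine natDegree_sum_le_of_forall_le _ _ fun i _ => ?_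
  exact (natDegree_C_mul_X_pow_le _ _).trans (Nat.sub_le _ _)

theorem rv_ne {d : ℕ} {c : Fin (d + 1) → ℂ} (hc : c ≠ 0) : rv c ≠ 0 := by
  intro e
  apply hc
  funext i
  have h1 : (rv c).coeff (d - i) = c i := by
    rw [rv, finsetSum_coeff, Finset.sum_eq_single i]
    · rw [coeff_C_mul, coeff_X_pow, if_pos rfl, mul_one]
    · intro j _ hj
      rw [coeff_C_mul, coeff_X_pow, if_neg, mul_zero]
      intro h2
      apply hj
      have := i.2
      have := j.2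
      ext
      omega
    · simp
  rw [← h1, e]
  rfl

theorem inv_pow_mul {x : ℂ} (hx : x ≠ 0) {d : ℕ} (i : Fin (d + 1)) :
    x ^ (d - i) = x ^ d * x⁻¹ ^ (i : ℕ) := by
  rw [inv_pow, pow_sub₀ _ hx (Nat.lt_succ_iff.1 i.2)]

/-- the relation holds off the two lattices -/
theorem rel_glob (h : IsLat Λ) (h' : IsLat Λ') {d : ℕ} (c : Fin (d + 1) → Fin (d + 1) → ℂ)
    (hr : ∀ᶠ z in 𝓝[≠] (0 : ℂ),
      ∑ i, ∑ j, c i j * (wp Λ z)⁻¹ ^ (i : ℕ) * (wp Λ' z)⁻¹ ^ (j : ℕ) = 0)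
    {z : ℂ} (hz : z ∉ Λ) (hz' : z ∉ Λ') :
    (rv fun i => (rv (c i)).eval (wp Λ' z)).eval (wp Λ z) = 0 := by
  have hB : ((Λ : Set ℂ) ∪ Λ').Countable := (lat_countable h).union (lat_countable h')
  have hc : IsPreconnected ((Λ : Set ℂ) ∪ Λ')ᶜ :=
    (hB.isConnected_compl_of_one_lt_rank (by simp)).isPreconnected
  let G : ℂ → ℂ := fun z => ∑ i : Fin (d + 1), (∑ j : Fin (d + 1), c i j * wp Λ' z ^ (d - j)) *
    wp Λ z ^ (d - i)
  have hG : AnalyticOnNhd ℂ G ((Λ : Set ℂ) ∪ Λ')ᶜ := by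
    intro x hx
    rw [Set.mem_compl_iff, Set.mem_union, not_or] at hx
    have a1 := h.analyticAt_wp hx.1
    have a2 := h'.analyticAt_wp hx.2
    refine Finset.analyticAt_fun_sum _ fun i _ => ?_
    exact (Finset.analyticAt_fun_sum _ fun j _ => analyticAt_const.mul (a2.pow _)).mul (a1.pow _)
  have h0 : ∀ᶠ x in 𝓝[≠] (0 : ℂ), G x = 0 := by
    filter_upwards [hr, wp_ev_ne h, wp_ev_ne h'] with x e n1 n2
    have : G x = wp Λ x ^ d * wp Λ' x ^ d *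
        ∑ i, ∑ j, c i j * (wp Λ x)⁻¹ ^ (i : ℕ) * (wp Λ' x)⁻¹ ^ (j : ℕ) := by
      simp only [G, Finset.mul_sum, Finset.sum_mul]
      refine Finset.sum_congr rfl fun i _ => Finset.sum_congr rfl fun j _ => ?_
      rw [inv_pow_mul n1 i, inv_pow_mul n2 j]
      ring
    rw [this, e, mul_zero]
  have h1 : ∀ᶠ x in 𝓝[≠] (0 : ℂ), ∀ᶠ y in 𝓝 x, G y = 0 := by
    have := (eventually_nhdsWithin_iff.1 h0).eventually_nhds
    filter_upwards [this.filter_mono nhdsWithin_le_nhds, self_mem_nhdsWithin] with x e hx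
    filter_upwards [e, isOpen_ne.mem_nhds hx] with y e1 e2
    exact e1 e2
  obtain ⟨x, hx, ex⟩ := ex_avoid hB h1
  have := hG.eqOn_zero_of_preconnected_of_eventuallyEq_zero hc hx ex
    (show z ∈ ((Λ : Set ℂ) ∪ Λ')ᶜ from fun e => e.elim hz hz')
  rw [rv_eval]
  simp only [rv_eval]
  exact this

/-- an algebraic relation gives a rational multiplier -/
theorem per (h : IsLat Λ) (h' : IsLat Λ') {d : ℕ} (c : Fin (d + 1) → Fin (d + 1) → ℂ) (hc : c ≠ 0)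
    (hr : ∀ᶠ z in 𝓝[≠] (0 : ℂ),
      ∑ i, ∑ j, c i j * (wp Λ z)⁻¹ ^ (i : ℕ) * (wp Λ' z)⁻¹ ^ (j : ℕ) = 0) :
    ∃ n : ℕ, 0 < n ∧ ∀ z ∈ Λ', (n : ℂ) * z ∈ Λ := by
  classical
  obtain ⟨i0, hi⟩ := Function.ne_iff.1 hc
  have hq := rv_ne hi
  have hB : {z : ℂ | ∃ a ∈ Λ, ∃ b ∈ Λ', 2 * z = a + b}.Countable := by
    refine (((lat_countable h).prod (lat_countable h')).image fun p => (p.1 + p.2) / 2).mono ?_
    rintro z ⟨a, ha, b, hb, e⟩
    exact ⟨(a, b), ⟨ha, hb⟩, by show (a + b) / 2 = z; rw [← e]; ring⟩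
  obtain ⟨z1, hz1, -⟩ := ex_avoid (lat_countable h') (z := 0) (p := fun _ => True) (by simp)
  have he : ∀ᶠ x in 𝓝[≠] z1, ∀ y ∈ (rv (c i0)).roots.toFinset, wp Λ' x ≠ y :=
    (Finset.eventually_all _).2 fun y _ => h'.ev_ne hz1 y
  obtain ⟨z0, hz0, hy⟩ := ex_avoid hB he
  have hne : (rv (c i0)).eval (wp Λ' z0) ≠ 0 := fun e =>
    hy _ (Multiset.mem_toFinset.2 ((mem_roots hq).2 e)) rfl
  have hP : (rv fun i => (rv (c i)).eval (wp Λ' z0)) ≠ 0 :=
    rv_ne (Function.ne_iff.2 ⟨i0, hne⟩)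
  refine ⟨d.factorial, d.factorial_pos, fun l hl => ?_⟩
  have n1 : ∀ k : ℕ, z0 + k * l ∉ Λ := fun k e => hz0 ⟨_, Λ.add_mem e e, _,
    Λ'.neg_mem (Λ'.add_mem (nat_mul_mem k hl) (nat_mul_mem k hl)), by ring⟩
  have n2 : ∀ k : ℕ, z0 + k * l ∉ Λ' := fun k e => hz0 ⟨0, Λ.zero_mem, _,
    Λ'.sub_mem (Λ'.add_mem e e) (Λ'.add_mem (nat_mul_mem k hl) (nat_mul_mem k hl)), by ring⟩
  have n3 : ∀ k k' : ℕ, z0 + k * l + (z0 + k' * l) ∉ Λ := fun k k' e => hz0 ⟨_, e, _,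
    Λ'.neg_mem (Λ'.add_mem (nat_mul_mem k hl) (nat_mul_mem k' hl)), by ring⟩
  have hroot : ∀ k ∈ Finset.range (d + 1), wp Λ (z0 + k * l) ∈
      (rv fun i => (rv (c i)).eval (wp Λ' z0)).roots.toFinset := by
    intro k _
    have e : wp Λ' (z0 + k * l) = wp Λ' z0 :=
      h'.wp_congr (mem_of_eq (nat_mul_mem k hl) (by ring))
    have := rel_glob h h' c hr (n1 k) (n2 k)
    rw [e] at this
    exact Multiset.mem_toFinset.2 ((mem_roots hP).2 this)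
  have hcard : (rv fun i => (rv (c i)).eval (wp Λ' z0)).roots.toFinset.card <
      (Finset.range (d + 1)).card := by
    rw [Finset.card_range]
    exact Nat.lt_succ_of_le (((Multiset.toFinset_card_le _).trans (card_roots' _)).trans (rv_deg _))
  have key : ∀ k k' : ℕ, k < k' → k' < d + 1 → wp Λ (z0 + k * l) = wp Λ (z0 + k' * l) →
      (d.factorial : ℂ) * l ∈ Λ := by
    intro k k' hk hk' e
    have h3 : z0 + k' * l - (z0 + k * l) ∈ Λ := by
      by_contra h3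
      exact h.wp_ne (n1 k') (n1 k) h3 (n3 k' k) e.symm
    obtain ⟨m, hm⟩ := Nat.dvd_factorial (show 0 < k' - k by omega) (show k' - k ≤ d by omega)
    refine mem_of_eq (nat_mul_mem m h3) ?_
    rw [hm, Nat.cast_mul, Nat.cast_sub hk.le]
    ring
  obtain ⟨k, hk, k', hk', hkk, e⟩ := Finset.exists_ne_map_eq_of_card_lt_of_maps_to hcard hroot
  rcases lt_or_gt_of_ne hkk with h1 | h1
  · exact key k k' h1 (Finset.mem_range.1 hk') e
  · exact key k' k h1 (Finset.mem_range.1 hk) e.symm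

end Vale.Agent.P014T.Ig
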