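import Vale.Agent.P027H.Wp
import Vale.Agent.P097.H809D.TS

/-!
# P014 (T), isogenies: the Taylor series of `t = -2℘/℘'` inverts the formal logarithm
-/

set_option linter.all false

open Filter Topology PowerSeries

namespace Vale.Agent.P014T.Ig.Ty

open Vale.Agent.P027H Vale.Agent.P097.H809D

/-! ### formal part -/

section formal

variable {K : Type} [Field K] [CharZero K]

theorem hs {φ : K⟦X⟧} (h : constantCoeff φ = 0) : HasSubst φ := .of_constantCoeff_zero' h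

theorem ne0 {f : K⟦X⟧} (h : constantCoeff f ≠ 0) : f ≠ 0 := fun e => h (by rw [e, map_zero])

/-- the equation of the chart has one solution with `w(0) = 0` -/
theorem w_uniq {A B T W W' : K⟦X⟧} (h0 : constantCoeff W = 0) (h0' : constantCoeff W' = 0)
    (h : W = T ^ 3 + A * T * W ^ 2 + B * W ^ 3) (h' : W' = T ^ 3 + A * T * W' ^ 2 + B * W' ^ 3) :
    W = W' := by
  have e : (W - W') * (1 - A * T * (W + W') - B * (W ^ 2 + W * W' + W' ^ 2)) = 0 := by
    linear_combination h - h'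
  rcases mul_eq_zero.1 e with e | e
  · exact sub_eq_zero.1 e
  · exact absurd e (ne0 (by simp [h0, h0']))

/-- the formal logarithm inverts a solution of the flow -/
theorem log_flow {a b : K} {T W w l : K⟦X⟧} (T0 : constantCoeff T = 0) (W0 : constantCoeff W = 0)
    (hW : W = T ^ 3 + C a * T * W ^ 2 + C b * W ^ 3)
    (hT : d⁄dX K T = 1 - 2 * C a * T * W - 3 * C b * W ^ 2)
    (w0 : constantCoeff w = 0) (hw : w = X ^ 3 + C a * X * w ^ 2 + C b * w ^ 3)
    (hl : d⁄dX K l * (1 - 2 * C a * X * w - 3 * C b * w ^ 2) = 1) (l0 : constantCoeff l = 0) :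
    l.subst T = (X : K⟦X⟧) := by
  have s := hs T0
  let σ : K⟦X⟧ →ₐ[K] K⟦X⟧ := substAlgHom s
  have σe : ∀ f, σ f = f.subst T := fun f => congrFun (coe_substAlgHom s) f
  have σX : σ X = T := substAlgHom_X s
  have σC : ∀ c : K, σ (C c) = C c := fun c => σ.commutes c
  have e1 : σ w = W := by
    refine w_uniq (A := C a) (B := C b) (T := T) ?_ W0 ?_ hW
    · rw [σe]; exact constantCoeff_subst_eq_zero T0 w w0
    · have := congrArg σ hw
      simpa only [map_add, map_mul, map_pow, σX, σC] using this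
  have e2 := congrArg σ hl
  simp only [map_sub, map_mul, map_pow, map_one, map_ofNat, σX, σC, e1] at e2
  refine derivative.ext ?_ ?_
  · rw [derivative_subst s, derivative_X, hT, ← σe]
    exact e2
  · rw [constantCoeff_X]
    exact constantCoeff_subst_eq_zero T0 l l0

/-- substitution into a series of order one is injective -/
theorem subst_inj {l S T : K⟦X⟧} (l0 : constantCoeff l = 0) (l1 : coeff 1 l ≠ 0)
    (S0 : constantCoeff S = 0) (T0 : constantCoeff T = 0) (h : l.subst S = l.subst T) : S = T := by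
  have u : IsUnit (coeff 1 l) := l1.isUnit
  have e := subst_substInvOfIsUnit_left l l0 u
  have k : ∀ R : K⟦X⟧, constantCoeff R = 0 → (l.substInvOfIsUnit u).subst (l.subst R) = R :=
    fun R R0 => by
      rw [← subst_comp_subst_apply (hs l0) (hs R0), e, subst_X (hs R0)]
  rw [← k S S0, h, k T T0]

theorem l_one {a b w l : K⟦X⟧} (w0 : constantCoeff w = 0)
    (hl : d⁄dX K l * (1 - 2 * a * X * w - 3 * b * w ^ 2) = 1) : coeff 1 l = 1 := by
  have := congrArg constantCoeff hl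
  rw [map_mul, ← coeff_zero_eq_constantCoeff_apply, coeff_derivative] at this
  simpa [w0] using this

/-- from the series of `z² ℘` to the chart -/
theorem chart {a b : K} {P R T W : K⟦X⟧} (P0 : constantCoeff P = 1)
    (hR : R = X * d⁄dX K P - 2 * P)
    (ho : R ^ 2 = 4 * P ^ 3 + 4 * C a * X ^ 4 * P + 4 * C b * X ^ 6)
    (hT : T * R = -2 * X * P) (hW : W * R = -2 * X ^ 3) :
    constantCoeff T = 0 ∧ constantCoeff W = 0 ∧ W = T ^ 3 + C a * T * W ^ 2 + C b * W ^ 3 ∧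
      d⁄dX K T = 1 - 2 * C a * T * W - 3 * C b * W ^ 2 := by
  have R0 : constantCoeff R = -2 := by simp [hR, P0, map_ofNat]
  have Rn : R ≠ 0 := ne0 (by rw [R0]; norm_num)
  have dC : ∀ c : K, d⁄dX K (C c) = 0 := fun c => derivative_C
  have d2 : d⁄dX K (2 : K⟦X⟧) = 0 := by simpa [map_ofNat] using dC 2
  have d4 : d⁄dX K (4 : K⟦X⟧) = 0 := by simpa [map_ofNat] using dC 4
  have n2 : (2 : K⟦X⟧) ≠ 0 := ne0 (by simp [map_ofNat])
  refine ⟨?_, ?_, ?_, ?_⟩
  · have := congrArg constantCoeff hT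
    simpa [R0] using this
  · have := congrArg constantCoeff hW
    simpa [R0] using this
  · refine mul_right_cancel₀ (pow_ne_zero 3 Rn) ?_
    have e : (T ^ 3 + C a * T * W ^ 2 + C b * W ^ 3) * R ^ 3 =
        (T * R) ^ 3 + C a * (T * R) * (W * R) ^ 2 + C b * (W * R) ^ 3 := by ring
    rw [e, show W * R ^ 3 = W * R * R ^ 2 by ring, hT, hW, ho]
    ring
  · have h1 := congrArg (d⁄dX K) ho
    have h2 := congrArg (d⁄dX K) hT
    simp only [map_add, Derivation.leibniz, Derivation.leibniz_pow, derivative_X, dC, d2, d4, map_neg,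
      smul_eq_mul, nsmul_eq_mul, Nat.cast_ofNat, neg_mul] at h1 h2
    norm_num at h1 h2
    have h3 : X * d⁄dX K R = 3 * R + 6 * P ^ 2 + 2 * C a * X ^ 4 := by
      refine mul_left_cancel₀ (mul_ne_zero n2 Rn) ?_
      linear_combination X * h1 - (12 * P ^ 2 + 4 * C a * X ^ 4) * hR - 6 * ho
    refine mul_right_cancel₀ (mul_ne_zero (X_ne_zero (R := K)) (pow_ne_zero 2 Rn)) ?_
    have e : (1 - 2 * C a * T * W - 3 * C b * W ^ 2) * (X * R ^ 2) =
        X * (R ^ 2 - 2 * C a * (T * R) * (W * R) - 3 * C b * (W * R) ^ 2) := by ring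
    rw [e, hW, hT]
    linear_combination X * R * h2 - T * R * h3 - (3 * R + 6 * P ^ 2 + 2 * C a * X ^ 4) * hT +
      2 * X * R * hR - 3 * X * ho

end formal

/-! ### analytic part -/

theorem TS_deriv (f : ℂ → ℂ) : TS (deriv f) = d⁄dX ℂ (TS f) := by
  ext i
  rw [coeff_derivative, coeff_TS, coeff_TS, iteratedDeriv_succ', Nat.factorial_succ]
  have h2 : ((i : ℂ) + 1) ≠ 0 := by exact_mod_cast Nat.succ_ne_zero i
  have h3 : (i.factorial : ℂ) ≠ 0 := by exact_mod_cast i.factorial_ne_zero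
  push_cast
  field_simp

/-- `t = -x / y` along the uniformisation `x = ℘`, `y = ℘' / 2` -/
noncomputable def tz (Λ : Submodule ℤ ℂ) (z : ℂ) : ℂ := -2 * wp Λ z / dwp Λ z

/-- `w = -1 / y` -/
noncomputable def wz (Λ : Submodule ℤ ℂ) (z : ℂ) : ℂ := -2 / dwp Λ z

variable {Λ Λ' : Submodule ℤ ℂ}

theorem tz_mero (h : IsLat Λ) : Meromorphic (tz Λ) := by
  obtain ⟨L, rfl⟩ := h
  exact fun x => (((MeromorphicAt.const (-2) x).mul (L.meromorphic_weierstrassP x)).div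
    (L.meromorphic_derivWeierstrassP x))

theorem wz_mero (h : IsLat Λ) : Meromorphic (wz Λ) := by
  obtain ⟨L, rfl⟩ := h
  exact fun x => ((MeromorphicAt.const (-2) x).div (L.meromorphic_derivWeierstrassP x))

theorem tz_per (h : IsLat Λ) {l : ℂ} (hl : l ∈ Λ) (z : ℂ) : tz Λ (z + l) = tz Λ z := by
  have e : z + l - z ∈ Λ := by simpa using hl
  rw [tz, tz, h.wp_congr e, h.dwp_congr e]

theorem wz_per (h : IsLat Λ) {l : ℂ} (hl : l ∈ Λ) (z : ℂ) : wz Λ (z + l) = wz Λ z := by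
  have e : z + l - z ∈ Λ := by simpa using hl
  rw [wz, wz, h.dwp_congr e]

theorem tz_mem (h : IsLat Λ) {z : ℂ} (hz : z ∈ Λ) : tz Λ z = 0 := by simp [tz, h.dwp_mem hz]

theorem wz_mem (h : IsLat Λ) {z : ℂ} (hz : z ∈ Λ) : wz Λ z = 0 := by simp [wz, h.dwp_mem hz]

theorem ev0 {p : ℂ → Prop} (h0 : p 0) (h : ∀ᶠ z in 𝓝[≠] (0 : ℂ), p z) : ∀ᶠ z in 𝓝 (0 : ℂ), p z := by
  rw [← nhdsNE_sup_pure, eventually_sup]
  exact ⟨h, h0⟩

/-- `z³ ℘'` -/
noncomputable def rz (L : PeriodPair) (z : ℂ) : ℂ := z * deriv (P014G.pa L) z - 2 * P014G.pa L z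

theorem rz_an (L : PeriodPair) : AnalyticAt ℂ (rz L) 0 :=
  (analyticAt_id.mul (P014G.pa_analytic L).deriv).sub (analyticAt_const.mul (P014G.pa_analytic L))

theorem rz_zero (L : PeriodPair) : rz L 0 ≠ 0 := by simp [rz, P014G.pa_zero]

theorem tz_ev (L : PeriodPair) :
    tz L.lattice =ᶠ[𝓝 0] fun z => -2 * z * P014G.pa L z / rz L z := by
  refine ev0 (by simp [tz_mem ⟨L, rfl⟩ (zero_mem _)]) ?_
  filter_upwards [P014G.eventually_notMem L, self_mem_nhdsWithin] with z h1 (h2 : z ≠ 0)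
  rw [rz, P014G.pa_deriv L h1, P014G.pa_eq L h2, tz, wp_lat, dwp_lat,
    show -2 * z * (z ^ 2 * L.weierstrassP z) = z ^ 3 * (-2 * L.weierstrassP z) by ring,
    mul_div_mul_left _ _ (pow_ne_zero 3 h2)]

theorem wz_ev (L : PeriodPair) : wz L.lattice =ᶠ[𝓝 0] fun z => -2 * z ^ 3 / rz L z := by
  refine ev0 (by simp [wz_mem ⟨L, rfl⟩ (zero_mem _)]) ?_
  filter_upwards [P014G.eventually_notMem L, self_mem_nhdsWithin] with z h1 (h2 : z ≠ 0)
  rw [rz, P014G.pa_deriv L h1, wz, dwp_lat, mul_comm (-2 : ℂ),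
    mul_div_mul_left _ _ (pow_ne_zero 3 h2)]

theorem tz_an (h : IsLat Λ) : AnalyticAt ℂ (tz Λ) 0 := by
  obtain ⟨L, rfl⟩ := h
  exact (((analyticAt_const.mul analyticAt_id).mul (P014G.pa_analytic L)).div (rz_an L)
    (rz_zero L)).congr (tz_ev L).symm

theorem wz_an (h : IsLat Λ) : AnalyticAt ℂ (wz Λ) 0 := by
  obtain ⟨L, rfl⟩ := h
  exact ((analyticAt_const.mul (analyticAt_id.pow 3)).div (rz_an L)
    (rz_zero L)).congr (wz_ev L).symm

/-- the Taylor series of `t` and `w` -/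
theorem tay (h : IsLat Λ) {a b : ℂ} (h2 : g2 Λ = -4 * a) (h3 : g3 Λ = -4 * b) :
    constantCoeff (TS (tz Λ)) = 0 ∧ constantCoeff (TS (wz Λ)) = 0 ∧
      TS (wz Λ) = TS (tz Λ) ^ 3 + C a * TS (tz Λ) * TS (wz Λ) ^ 2 + C b * TS (wz Λ) ^ 3 ∧
      d⁄dX ℂ (TS (tz Λ)) = 1 - 2 * C a * TS (tz Λ) * TS (wz Λ) - 3 * C b * TS (wz Λ) ^ 2 := by
  have ta := tz_an h
  have wa := wz_an h
  obtain ⟨L, rfl⟩ := h
  have pa := P014G.pa_analytic L
  have ra := rz_an L
  have ia : AnalyticAt ℂ (fun z : ℂ => z) 0 := analyticAt_id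
  have ca : ∀ c : ℂ, AnalyticAt ℂ (fun _ : ℂ => c) 0 := fun c => analyticAt_const
  have rn : ∀ᶠ z in 𝓝 (0 : ℂ), rz L z ≠ 0 := ra.continuousAt.eventually_ne (rz_zero L)
  have c2 : (C (2 : ℂ) : ℂ⟦X⟧) = 2 := map_ofNat _ 2
  have c4 : (C (4 : ℂ) : ℂ⟦X⟧) = 4 := map_ofNat _ 4
  refine chart (P := TS (P014G.pa L)) (R := TS (rz L)) ?_ ?_ ?_ ?_ ?_
  · rw [← coeff_zero_eq_constantCoeff_apply, coeff_TS_zero, P014G.pa_zero]
  · unfold rz
    rw [TS_sub (ia.fun_mul pa.deriv) ((ca 2).fun_mul pa), TS_mul ia pa.deriv, TS_mul (ca 2) pa, TS_id,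
      TS_const, TS_deriv, c2]
  · have e : (fun z => rz L z ^ 2) =ᶠ[𝓝 0] fun z =>
        4 * P014G.pa L z ^ 3 + 4 * a * z ^ 4 * P014G.pa L z + 4 * b * z ^ 6 := by
      refine ev0 (by simp [rz, P014G.pa_zero]; norm_num) ?_
      filter_upwards [P014G.pa_ode L] with z hz
      rw [g2_lat] at h2
      rw [g3_lat] at h3
      rw [rz, hz, h2, h3]
      ring
    rw [← TS_pow ra, TS_congr e,
      TS_add (((ca 4).fun_mul (pa.fun_pow 3)).fun_add (((ca _).fun_mul (ia.fun_pow 4)).fun_mul pa))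
        ((ca _).fun_mul (ia.fun_pow 6)),
      TS_add ((ca 4).fun_mul (pa.fun_pow 3)) (((ca _).fun_mul (ia.fun_pow 4)).fun_mul pa),
      TS_mul (ca 4) (pa.fun_pow 3), TS_mul ((ca _).fun_mul (ia.fun_pow 4)) pa,
      TS_mul (ca _) (ia.fun_pow 4), TS_mul (ca _) (ia.fun_pow 6), TS_pow pa, TS_pow ia, TS_pow ia,
      TS_id, TS_const, TS_const, TS_const, map_mul, map_mul, c4]
  · have e : (fun z => tz L.lattice z * rz L z) =ᶠ[𝓝 0] fun z => -2 * z * P014G.pa L z := by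
      filter_upwards [tz_ev L, rn] with z h1 h4
      rw [h1, div_mul_cancel₀ _ h4]
    rw [← TS_mul ta ra, TS_congr e, TS_mul ((ca _).fun_mul ia) pa, TS_mul (ca _) ia, TS_id, TS_const,
      map_neg, c2]
  · have e : (fun z => wz L.lattice z * rz L z) =ᶠ[𝓝 0] fun z => -2 * z ^ 3 := by
      filter_upwards [wz_ev L, rn] with z h1 h4
      rw [h1, div_mul_cancel₀ _ h4]
    rw [← TS_mul wa ra, TS_congr e, TS_mul (ca _) (ia.fun_pow 3), TS_pow ia, TS_id, TS_const,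
      map_neg, c2]

/-- rational series as complex series -/
noncomputable abbrev cq : ℚ⟦X⟧ →+* ℂ⟦X⟧ := PowerSeries.map (Rat.castHom ℂ)

theorem cq_d (f : ℚ⟦X⟧) : d⁄dX ℂ (cq f) = cq (d⁄dX ℚ f) := by
  ext i
  simp [coeff_derivative]

theorem cq_zero {f : ℚ⟦X⟧} (h : constantCoeff f = 0) : constantCoeff (cq f) = 0 := by
  rw [← coeff_zero_eq_constantCoeff_apply, coeff_map, coeff_zero_eq_constantCoeff_apply, h, map_zero]

theorem cq_subst {φ : ℚ⟦X⟧} (h : constantCoeff φ = 0) (f : ℚ⟦X⟧) :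
    cq (f.subst φ) = (cq f).subst (cq φ) := map_subst (hs h) f

/-- formal logarithm data of `y² = x³ + A x + B` -/
structure Lg (A B : ℤ) (w l : ℚ⟦X⟧) : Prop where
  w0 : constantCoeff w = 0
  hw : w = X ^ 3 + (A : ℚ⟦X⟧) * X * w ^ 2 + (B : ℚ⟦X⟧) * w ^ 3
  hl : d⁄dX ℚ l * (1 - 2 * (A : ℚ⟦X⟧) * X * w - 3 * (B : ℚ⟦X⟧) * w ^ 2) = 1
  l0 : constantCoeff l = 0

/-- the formal logarithm of the Taylor series of `t` is `X` -/
theorem log_tz {A B : ℤ} {w l : ℚ⟦X⟧} (h : IsLat Λ) (h2 : g2 Λ = -4 * A) (h3 : g3 Λ = -4 * B)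
    (g : Lg A B w l) : (cq l).subst (TS (tz Λ)) = (X : ℂ⟦X⟧) := by
  obtain ⟨T0, W0, hW, hT⟩ := tay h h2 h3
  refine log_flow (w := cq w) T0 W0 hW hT (cq_zero g.w0) ?_ ?_ (cq_zero g.l0)
  · have := congrArg cq g.hw
    simpa only [map_add, map_mul, map_pow, map_X, map_intCast] using this
  · have := congrArg cq g.hl
    rw [cq_d]
    simpa only [map_sub, map_mul, map_pow, map_X, map_intCast, map_one, map_ofNat] using this

/-- `log_E ∘ φ = log_E'` gives `t_Λ = φ ∘ t_Λ'` on Taylor series -/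
theorem link {A B A' B' : ℤ} {w l w' l' φ : ℚ⟦X⟧} (h : IsLat Λ) (h2 : g2 Λ = -4 * A)
    (h3 : g3 Λ = -4 * B) (h' : IsLat Λ') (h2' : g2 Λ' = -4 * A') (h3' : g3 Λ' = -4 * B')
    (g : Lg A B w l) (g' : Lg A' B' w' l') (φ0 : constantCoeff φ = 0) (e : l' = l.subst φ) :
    TS (tz Λ) = (cq φ).subst (TS (tz Λ')) := by
  have T0 := (tay h h2 h3).1
  have T0' := (tay h' h2' h3').1
  have l1 : coeff 1 (cq l) ≠ 0 := by rw [coeff_map, l_one g.w0 g.hl]; simp
  refine subst_inj (cq_zero g.l0) l1 T0 (constantCoeff_subst_eq_zero T0' _ (cq_zero φ0)) ?_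
  rw [log_tz h h2 h3 g, ← subst_comp_subst_apply (hs (cq_zero φ0)) (hs T0'), ← cq_subst φ0, ← e,
    log_tz h' h2' h3' g']

theorem tz_one {a b : ℂ} (h : IsLat Λ) (h2 : g2 Λ = -4 * a) (h3 : g3 Λ = -4 * b) :
    coeff 1 (TS (tz Λ)) = 1 := by
  obtain ⟨T0, W0, -, hT⟩ := tay h h2 h3
  have := congrArg constantCoeff hT
  rw [← coeff_zero_eq_constantCoeff_apply, coeff_derivative] at this
  simpa [W0] using this

end Vale.Agent.P014T.Ig.Ty
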