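import Vale.Agent.P014T.Ig.Tay
import Vale.Agent.P014T.Ig.V

/-!
# P014 (T), isogenies: `u = 1 / ℘`, `v = u' / 2`, the derivatives at the origin, and `u = a / b`
-/

set_option linter.all false

open Filter Topology MvPolynomial

namespace Vale.Agent.P014T.Ig.Ty

open Vale.Agent.P027H Vale.Agent.P014T.Ig.Pc

variable {Λ Λ' : Submodule ℤ ℂ}

/-- `u = 1 / ℘` -/
noncomputable def uz (Λ : Submodule ℤ ℂ) (z : ℂ) : ℂ := (wp Λ z)⁻¹

/-- `v = u' / 2` -/
noncomputable def vz (Λ : Submodule ℤ ℂ) (z : ℂ) : ℂ := deriv (uz Λ) z / 2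

theorem uz_mem (h : IsLat Λ) {z : ℂ} (hz : z ∈ Λ) : uz Λ z = 0 := by simp [uz, h.wp_mem hz]

theorem uz_zero (h : IsLat Λ) : uz Λ 0 = 0 := uz_mem h (zero_mem _)

theorem uz_ev (L : PeriodPair) : uz L.lattice =ᶠ[𝓝 0] fun z => z ^ 2 / P014G.pa L z := by
  refine ev0 (by simp [uz_zero ⟨L, rfl⟩]) ?_
  filter_upwards [self_mem_nhdsWithin] with z (h2 : z ≠ 0)
  rw [P014G.pa_eq L h2, uz, wp_lat, div_mul_cancel_left₀ (pow_ne_zero 2 h2)]

theorem pa_ne (L : PeriodPair) : P014G.pa L 0 ≠ 0 := by simp [P014G.pa_zero]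

theorem uz_an (h : IsLat Λ) : AnalyticAt ℂ (uz Λ) 0 := by
  obtain ⟨L, rfl⟩ := h
  exact ((analyticAt_id.pow 2).div (P014G.pa_analytic L) (pa_ne L)).congr (uz_ev L).symm

theorem vz_an (h : IsLat Λ) : AnalyticAt ℂ (vz Λ) 0 :=
  (uz_an h).deriv.div analyticAt_const two_ne_zero

theorem vz_zero (h : IsLat Λ) : vz Λ 0 = 0 := by
  obtain ⟨L, rfl⟩ := h
  have := ((hasDerivAt_pow 2 (0 : ℂ)).fun_div
    (P014G.pa_analytic L).differentiableAt.hasDerivAt (pa_ne L)).deriv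
  rw [vz, (uz_ev L).deriv_eq, this]
  simp

theorem near (h : IsLat Λ) : ∀ᶠ z in 𝓝[≠] (0 : ℂ), z ∉ Λ ∧ wp Λ z ≠ 0 ∧ dwp Λ z ≠ 0 := by
  obtain ⟨L, rfl⟩ := h
  filter_upwards [P014G.eventually_notMem L, self_mem_nhdsWithin,
    mem_nhdsWithin_of_mem_nhds ((P014G.pa_analytic L).continuousAt.eventually_ne (pa_ne L)),
    mem_nhdsWithin_of_mem_nhds ((rz_an L).continuousAt.eventually_ne (rz_zero L))]
    with z h1 (h2 : z ≠ 0) h3 h4
  refine ⟨h1, fun e => h3 ?_, fun e => h4 ?_⟩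
  · rw [P014G.pa_eq L h2, ← wp_lat, e, mul_zero]
  · rw [rz, P014G.pa_deriv L h1, ← dwp_lat, e, mul_zero]

theorem vz_eq (h : IsLat Λ) {z : ℂ} (hz : z ∉ Λ) (h0 : wp Λ z ≠ 0) :
    vz Λ z = -dwp Λ z / wp Λ z ^ 2 / 2 := by
  rw [vz, ← ((h.hasDerivAt_wp hz).fun_inv h0).deriv]
  rfl

theorem uz_d (h : IsLat Λ) : ∀ᶠ z in 𝓝 (0 : ℂ), HasDerivAt (uz Λ) (2 * vz Λ z) z := by
  filter_upwards [(uz_an h).eventually_analyticAt] with z hz
  rw [vz, mul_div_cancel₀ _ (two_ne_zero' ℂ)]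
  exact hz.differentiableAt.hasDerivAt

theorem vz_sq (h : IsLat Λ) {a b : ℂ} (h2 : g2 Λ = -4 * a) (h3 : g3 Λ = -4 * b) :
    ∀ᶠ z in 𝓝 (0 : ℂ), vz Λ z ^ 2 = uz Λ z + a * uz Λ z ^ 3 + b * uz Λ z ^ 4 := by
  refine ev0 (by simp [uz_zero h, vz_zero h]) ?_
  filter_upwards [near h] with z ⟨h1, h4, _⟩
  have := h.ode h1
  rw [h2, h3] at this
  rw [vz_eq h h1 h4, uz]
  field_simp
  linear_combination this

theorem vz_d (h : IsLat Λ) {a b : ℂ} (h2 : g2 Λ = -4 * a) (h3 : g3 Λ = -4 * b) :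
    ∀ᶠ z in 𝓝 (0 : ℂ), HasDerivAt (vz Λ) (1 + 3 * a * uz Λ z ^ 2 + 4 * b * uz Λ z ^ 3) z := by
  have ua := uz_an h
  have va := vz_an h
  have e : ∀ᶠ z in 𝓝 (0 : ℂ), deriv (vz Λ) z = 1 + 3 * a * uz Λ z ^ 2 + 4 * b * uz Λ z ^ 3 := by
    refine (AnalyticAt.frequently_eq_iff_eventually_eq va.deriv (by fun_prop)).1
      (Eventually.frequently ?_)
    filter_upwards [near h, mem_nhdsWithin_of_mem_nhds (vz_sq h h2 h3).eventually_nhds,
      mem_nhdsWithin_of_mem_nhds (uz_d h), mem_nhdsWithin_of_mem_nhds va.eventually_analyticAt]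
      with z ⟨h1, h4, h5⟩ h6 h7 h8
    have hv : vz Λ z ≠ 0 := by rw [vz_eq h h1 h4]; simp [h4, h5]
    have d1 := h8.differentiableAt.hasDerivAt.fun_pow 2
    have d2 := (h7.fun_add ((h7.fun_pow 3).const_mul a)).fun_add ((h7.fun_pow 4).const_mul b)
    have := (d1.congr_of_eventuallyEq (EventuallyEq.symm h6)).unique d2
    refine mul_left_cancel₀ (mul_ne_zero two_ne_zero hv) ?_
    norm_num at this
    linear_combination this
  filter_upwards [e, va.eventually_analyticAt] with z h1 h4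
  exact h1 ▸ h4.differentiableAt.hasDerivAt

/-- chain rule along a flow -/
theorem flow {σ : Type} (D : Derivation ℤ (MvPolynomial σ ℤ) (MvPolynomial σ ℤ)) (f : ℂ → σ → ℂ)
    (hf : ∀ i, ∀ᶠ z in 𝓝 (0 : ℂ), HasDerivAt (fun z => f z i) (aeval (f z) (D (X i))) z)
    (P : MvPolynomial σ ℤ) :
    ∀ᶠ z in 𝓝 (0 : ℂ), HasDerivAt (fun z => aeval (f z) P) (aeval (f z) (D P)) z := by
  induction P using MvPolynomial.induction_on with
  | C a =>
    refine Eventually.of_forall fun z => ?_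
    simpa using hasDerivAt_const z (a : ℂ)
  | add p q hp hq =>
    filter_upwards [hp, hq] with z h1 h2
    simpa only [map_add] using h1.fun_add h2
  | mul_X p i hp =>
    filter_upwards [hp, hf i] with z h1 h2
    have := h1.fun_mul h2
    simp only [map_mul, aeval_X, Derivation.leibniz, smul_eq_mul, map_add]
    rw [add_comm, mul_comm (f z i)]
    exact this

theorem flow_it {σ : Type} (D : Derivation ℤ (MvPolynomial σ ℤ) (MvPolynomial σ ℤ)) (f : ℂ → σ → ℂ)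
    (hf : ∀ i, ∀ᶠ z in 𝓝 (0 : ℂ), HasDerivAt (fun z => f z i) (aeval (f z) (D (X i))) z)
    (n : ℕ) (P : MvPolynomial σ ℤ) :
    iteratedDeriv n (fun z => aeval (f z) P) 0 = aeval (f 0) ((fun Q => D Q)^[n] P) := by
  induction n generalizing P with
  | zero => simp
  | succ n ih =>
    rw [iteratedDeriv_succ', Function.iterate_succ_apply, ← ih]
    refine EventuallyEq.iteratedDeriv_eq n ?_
    filter_upwards [flow D f hf P] with z hz
    exact hz.deriv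

/-- the derivatives at the origin of a polynomial in `u, v, u', v'` -/
theorem bridge {A B A' B' : ℤ} (h : IsLat Λ) (h2 : g2 Λ = -4 * A) (h3 : g3 Λ = -4 * B)
    (h' : IsLat Λ') (h2' : g2 Λ' = -4 * A') (h3' : g3 Λ' = -4 * B') (P : MvPolynomial (Fin 4) ℤ)
    (n : ℕ) : iteratedDeriv n (fun z => aeval ![uz Λ z, vz Λ z, uz Λ' z, vz Λ' z] P) 0 =
      (cf A B A' B' P n : ℂ) := by
  rw [flow_it (Vk ℤ A B A' B') (fun z => ![uz Λ z, vz Λ z, uz Λ' z, vz Λ' z])]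
  · have e : ![uz Λ 0, vz Λ 0, uz Λ' 0, vz Λ' 0] = fun _ => (0 : ℂ) := by
      funext i
      fin_cases i <;> simp [uz_zero h, vz_zero h, uz_zero h', vz_zero h']
    rw [e, aeval_zero']
    rfl
  · intro i
    fin_cases i
    · filter_upwards [uz_d h] with z hz
      simpa [vk0, map_ofNat] using hz
    · filter_upwards [vz_d h h2 h3] with z hz
      simpa [vk1, map_ofNat] using hz
    · filter_upwards [uz_d h'] with z hz
      simpa [vk2, map_ofNat] using hz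
    · filter_upwards [vz_d h' h2' h3'] with z hz
      simpa [vk3, map_ofNat] using hz

theorem bridge_mon {A B A' B' : ℤ} (h : IsLat Λ) (h2 : g2 Λ = -4 * A) (h3 : g3 Λ = -4 * B)
    (h' : IsLat Λ') (h2' : g2 Λ' = -4 * A') (h3' : g3 Λ' = -4 * B') (i j n : ℕ) :
    iteratedDeriv n (fun z => uz Λ z ^ i * uz Λ' z ^ j) 0 =
      (cf A B A' B' (X 0 ^ i * X 2 ^ j) n : ℂ) := by
  rw [← bridge h h2 h3 h' h2' h3']
  simp

theorem bridge_sum {A B A' B' : ℤ} (h : IsLat Λ) (h2 : g2 Λ = -4 * A) (h3 : g3 Λ = -4 * B)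
    (h' : IsLat Λ') (h2' : g2 Λ' = -4 * A') (h3' : g3 Λ' = -4 * B') {d : ℕ} (c : Fin d → Fin d → ℤ)
    (n : ℕ) :
    iteratedDeriv n (fun z => ∑ i, ∑ j, (c i j : ℂ) * uz Λ z ^ (i : ℕ) * uz Λ' z ^ (j : ℕ)) 0 =
      (cf A B A' B' (∑ i, ∑ j, C (c i j) * X 0 ^ (i : ℕ) * X 2 ^ (j : ℕ)) n : ℂ) := by
  rw [← bridge h h2 h3 h' h2' h3']
  simp

theorem ev_an (h : IsLat Λ) (h' : IsLat Λ') (P : MvPolynomial (Fin 4) ℤ) :
    AnalyticAt ℂ (fun z => aeval ![uz Λ z, vz Λ z, uz Λ' z, vz Λ' z] P) 0 := by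
  induction P using MvPolynomial.induction_on with
  | C a => simpa using analyticAt_const
  | add p q hp hq => simpa only [map_add] using hp.fun_add hq
  | mul_X p i hp =>
    simp only [map_mul, aeval_X]
    refine hp.fun_mul ?_
    fin_cases i
    · exact uz_an h
    · exact vz_an h
    · exact uz_an h'
    · exact vz_an h'

theorem fin_ball (h : IsLat Λ) (R : ℝ) : (Metric.closedBall (0 : ℂ) R ∩ Λ).Finite := by
  obtain ⟨L, rfl⟩ := h
  exact ((isCompact_closedBall 0 R).inter_right L.isClosed_lattice).finite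
    (IsDiscrete.mono (isDiscrete_iff_discreteTopology.2 (inferInstanceAs (DiscreteTopology L.lattice))) Set.inter_subset_right)

/-- on every disc `u` is a quotient of holomorphic functions -/
theorem frac (h : IsLat Λ) (R : ℝ) : ∃ a b : ℂ → ℂ, Differentiable ℂ a ∧
    DifferentiableOn ℂ b (Metric.ball 0 R) ∧ b 0 ≠ 0 ∧ (∀ z, z ∉ Λ → a z ≠ 0 ∧ b z = wp Λ z * a z) ∧
    ∀ᶠ z in 𝓝 (0 : ℂ), uz Λ z = a z / b z := by
  classical
  obtain ⟨S, hS⟩ : ∃ S : Finset ℂ, (∀ z ∈ S, z ∈ Λ) ∧ 0 ∈ S ∧ ∀ z ∈ Metric.ball (0 : ℂ) R, z ∈ Λ → z ∈ S :=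
    ⟨insert 0 (fin_ball h R).toFinset, fun z hz => by
      rcases Finset.mem_insert.1 hz with rfl | hz
      · exact zero_mem _
      · exact ((Set.Finite.mem_toFinset _).1 hz).2, Finset.mem_insert_self _ _,
      fun z h1 h2 => Finset.mem_insert_of_mem
        ((Set.Finite.mem_toFinset _).2 ⟨Metric.ball_subset_closedBall h1, h2⟩)⟩
  obtain ⟨S1, S0, S2⟩ := hS
  have an : ∀ z, z ∉ Λ → ∏ s ∈ S, (z - s) ^ 2 ≠ 0 := fun z hz =>
    Finset.prod_ne_zero_iff.2 fun s hs => pow_ne_zero 2 (sub_ne_zero.2 fun e => hz (e ▸ S1 s hs))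
  have da : ∀ T : Finset ℂ, Differentiable ℂ fun z : ℂ => ∏ s ∈ T, (z - s) ^ 2 := fun T => by
    fun_prop
  refine ⟨fun z => ∏ s ∈ S, (z - s) ^ 2,
    fun z => if z ∈ Λ then ∏ s ∈ S.erase z, (z - s) ^ 2 else wp Λ z * ∏ s ∈ S, (z - s) ^ 2,
    da S, fun z hz => DifferentiableAt.differentiableWithinAt ?_, ?_,
    fun z hz => ⟨an z hz, if_neg hz⟩, ?_⟩
  · by_cases hm : z ∈ Λ
    · obtain ⟨L, rfl⟩ := h
      have t : Tendsto (fun w : ℂ => w - z) (𝓝 z) (𝓝 0) := by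
        simpa using (continuous_sub_right z).tendsto z
      have d1 : DifferentiableAt ℂ (fun w => P014G.pa L (w - z)) z := by
        have := (P014G.pa_analytic L).differentiableAt
        rw [← sub_self z] at this
        exact this.comp z (f := fun w => w - z) (by fun_prop)
      refine (d1.fun_mul (da (S.erase z) z)).congr_of_eventuallyEq ?_
      filter_upwards [L.compl_lattice_sdiff_singleton_mem_nhds z] with w hw
      by_cases e : w = z
      · subst e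
        rw [if_pos hm, sub_self, P014G.pa_zero, one_mul]
      · have hn : w ∉ L.lattice := fun k => hw ⟨k, e⟩
        rw [if_neg hn, P014G.pa_eq L (sub_ne_zero.2 e), ← Finset.mul_prod_erase S _ (S2 z hz hm),
          ← wp_lat, IsLat.wp_congr ⟨L, rfl⟩ (z := w - z) (w := w) (by simpa using hm)]
        ring
    · refine ((h.analyticAt_wp hm).differentiableAt.fun_mul (da S z)).congr_of_eventuallyEq ?_
      filter_upwards [h.notMem_nhds hm] with w hw
      exact if_neg hw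
  · show (if (0 : ℂ) ∈ Λ then _ else _) ≠ (0 : ℂ)
    rw [if_pos (zero_mem _)]
    exact Finset.prod_ne_zero_iff.2 fun s hs =>
      pow_ne_zero 2 (sub_ne_zero.2 (Finset.ne_of_mem_erase hs).symm)
  · refine ev0 ?_ ?_
    · show _ = (∏ s ∈ S, ((0 : ℂ) - s) ^ 2) / _
      rw [uz_zero h, Finset.prod_eq_zero S0 (by simp), zero_div]
    · filter_upwards [h.notMem_zero] with z hz
      rw [if_neg hz, div_mul_cancel_right₀ (an z hz), uz]

end Vale.Agent.P014T.Ig.Ty
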